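import Vale.Agent.P022.H380.FiB

/-! Package P12a7: the first inequality in dual form. -/

namespace Vale.Agent.P022.CFT

open NumberField IsDedekindDomain UniqueFactorizationMonoid
open Vale.Agent.P024.M3 (h0 h1 e1 dd nn RR VS Unr)

noncomputable section

set_option linter.unusedSectionVars false

theorem mem_natCast_prod {R : Type*} [CommRing R] {P : Ideal R} {s : Finset ℕ} {p : ℕ}
    (hp : p ∈ s) (h : (p : R) ∈ P) : ((∏ q ∈ s, q : ℕ) : R) ∈ P := by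
  classical
  rw [← Finset.mul_prod_erase _ _ hp]
  push_cast
  exact P.mul_mem_right _ h

theorem exists_prime_mem {R : Type*} [CommRing R] {P : Ideal R} (hP : P.IsPrime) {N : ℕ} (hN : 0 < N)
    (h : (N : R) ∈ P) : ∃ p, p.Prime ∧ p ∣ N ∧ (p : R) ∈ P := by
  have h1 : ((N.primeFactorsList.prod : ℕ) : R) ∈ P := by
    rw [Nat.prod_primeFactorsList hN.ne']; exact h
  have key : ∀ l : List ℕ, ((l.prod : ℕ) : R) ∈ P → ∃ p ∈ l, (p : R) ∈ P := by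
    intro l
    induction l with
    | nil =>
      intro h
      rw [List.prod_nil, Nat.cast_one] at h
      exact absurd ((Ideal.eq_top_iff_one P).mpr h) hP.ne_top
    | cons a l ih =>
      intro h
      rw [List.prod_cons, Nat.cast_mul] at h
      rcases hP.mem_or_mem h with h | h
      · exact ⟨a, List.mem_cons_self, h⟩
      · obtain ⟨p, hp, hpP⟩ := ih h
        exact ⟨p, List.mem_cons_of_mem _ hp, hpP⟩
  obtain ⟨p, hp, hpP⟩ := key _ h1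
  exact ⟨p, Nat.prime_of_mem_primeFactorsList hp, Nat.dvd_of_mem_primeFactorsList hp, hpP⟩

section dual

variable {K : Type} [Field K] [NumberField K]

/-- The dual of `Kˣ / H` as functions on ideals. -/
def Phi (H : Subgroup Kˣ) (x : Ideal (𝓞 K) → Kˣ) :
    ((Kˣ ⧸ H) →* ℂˣ) →* (Ideal (𝓞 K) → ℂˣ) where
  toFun Θ P := Θ (QuotientGroup.mk' H (x P))
  map_one' := rfl
  map_mul' _ _ := rfl

theorem Phi_apply (H : Subgroup Kˣ) (x : Ideal (𝓞 K) → Kˣ) (Θ : (Kˣ ⧸ H) →* ℂˣ)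
    (P : Ideal (𝓞 K)) : Phi H x Θ P = Θ (QuotientGroup.mk' H (x P)) := rfl

variable {m : ℕ} {x : Ideal (𝓞 K) → Kˣ} {H : Subgroup Kˣ}

theorem Phi_val
    (hx1 : ∀ v : HeightOneSpectrum (𝓞 K), (m : 𝓞 K) ∉ v.asIdeal →
      v.valuation K (x v.asIdeal : K) = WithZero.exp (-1 : ℤ) ∧
      ∀ w : HeightOneSpectrum (𝓞 K), w ≠ v → (m : 𝓞 K) ∉ w.asIdeal →
        w.valuation K (x v.asIdeal : K) = 1)
    (hx2 : ∀ P : Ideal (𝓞 K), ¬ (P.IsPrime ∧ P ≠ ⊥ ∧ (m : 𝓞 K) ∉ P) → x P = 1)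
    (hSU : SU K m ≤ H) (Θ : (Kˣ ⧸ H) →* ℂˣ) (a : 𝓞 K) (u : Kˣ) (ha : a ≠ 0)
    (hu : (u : K) = algebraMap (𝓞 K) K a) :
    Θ (QuotientGroup.mk' H u) = evI (Phi H x Θ) (Ideal.span {a}) := by
  refine evI_eq (m := m) hx1 hx2 (Θ.comp (QuotientGroup.mk' H)) ?_ ha u hu
  intro y hy
  rw [MonoidHom.comp_apply, QuotientGroup.mk'_apply, (QuotientGroup.eq_one_iff y).mpr (hSU hy),
    map_one]

theorem Phi_inj
    (hval : ∀ (Θ : (Kˣ ⧸ H) →* ℂˣ) (a : 𝓞 K) (u : Kˣ), a ≠ 0 → (u : K) = algebraMap (𝓞 K) K a →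
      Θ (QuotientGroup.mk' H u) = evI (Phi H x Θ) (Ideal.span {a})) :
    Function.Injective (Phi H x) := by
  rw [injective_iff_map_eq_one]
  intro Θ hΘ
  refine MonoidHom.ext fun q => ?_
  obtain ⟨y, rfl⟩ := QuotientGroup.mk'_surjective H q
  obtain ⟨a, b, ua, ub, ha, hb, hua, hub, rfl⟩ := exists_unit_frac y
  rw [map_div, map_div, hval Θ a ua ha hua, hval Θ b ub hb hub, hΘ]
  have h1 : ∀ I : Ideal (𝓞 K), evI (1 : Ideal (𝓞 K) → ℂˣ) I = 1 := fun I =>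
    evI_eq_one _ (fun P _ => rfl)
  rw [h1, h1, MonoidHom.one_apply, div_one]

theorem one_mem_VT {k : ℕ} (hk1 : 1 ≤ k) {α : 𝓞 K} (hα1 : α - 1 ∈ idl K ((m ^ k : ℕ) : ℤ))
    (hα2 : ∀ φ : K →+* ℝ, 0 < φ α) (hαK : algebraMap (𝓞 K) K α ≠ 0) :
    Units.mk0 _ hαK ∈ VS K m k ⊓ TP K := by
  refine ⟨?_, fun φ => hα2 φ⟩
  intro w hw
  obtain ⟨c, hc⟩ := Ideal.mem_span_singleton.mp hα1
  have h1 : w.valuation K (algebraMap (𝓞 K) K α - 1) ≤ w.valuation K ((m : K) ^ k) := by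
    have h2 : algebraMap (𝓞 K) K α - 1 = (m : K) ^ k * algebraMap (𝓞 K) K c := by
      rw [← map_one (algebraMap (𝓞 K) K), ← map_sub, hc, map_mul]
      push_cast
      simp
    rw [h2, map_mul]
    calc w.valuation K ((m : K) ^ k) * w.valuation K (algebraMap (𝓞 K) K c)
        ≤ w.valuation K ((m : K) ^ k) * 1 := by
          gcongr
          exact w.valuation_le_one c
      _ = _ := mul_one _
  have h2 : w.valuation K ((m : K) ^ k) < 1 := by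
    have h3 : (m : K) ^ k = algebraMap (𝓞 K) K ((m : 𝓞 K) ^ k) := by simp
    rw [h3, HeightOneSpectrum.valuation_lt_one_iff_mem]
    exact Ideal.pow_mem_of_mem _ hw _ hk1
  refine ⟨?_, h1⟩
  have h3 : w.valuation K (1 : K) = 1 := map_one _
  have h4 : w.valuation K ((Units.mk0 _ hαK : Kˣ) : K) =
      w.valuation K (1 + (algebraMap (𝓞 K) K α - 1)) := by
    congr 1
    rw [Units.val_mk0]
    ring
  rw [h4, Valuation.map_add_eq_of_lt_left _ (by rw [h3]; exact h1.trans_lt h2), h3]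

theorem mem_pow_iff {k : ℕ} (hk1 : 1 ≤ k) {𝔭 : Ideal (𝓞 K)} (h𝔭 : 𝔭.IsPrime) :
    ((m ^ k : ℕ) : 𝓞 K) ∈ 𝔭 ↔ (m : 𝓞 K) ∈ 𝔭 := by
  push_cast
  exact h𝔭.pow_mem_iff_mem k hk1

end dual

theorem Phi_nrm {K : Type} [Field K] [NumberField K] {m k : ℕ} (hk1 : 1 ≤ k)
    {x : Ideal (𝓞 K) → Kˣ} {H : Subgroup Kˣ}
    (hx2 : ∀ P : Ideal (𝓞 K), ¬ (P.IsPrime ∧ P ≠ ⊥ ∧ (m : 𝓞 K) ∉ P) → x P = 1)
    (Θ : (Kˣ ⧸ H) →* ℂˣ) : Nrm (m ^ k) (Phi H x Θ) := by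
  intro 𝔭 h𝔭
  have h1 : x 𝔭 = 1 := by
    apply hx2
    rintro ⟨h1, h2, h3⟩
    exact h𝔭 ⟨h1, h2, fun h4 => h3 ((mem_pow_iff hk1 h1).mp h4)⟩
  rw [Phi_apply, h1, map_one, map_one]

theorem Phi_rc {K : Type} [Field K] [NumberField K] {m k : ℕ} (hk1 : 1 ≤ k)
    {x : Ideal (𝓞 K) → Kˣ} {H : Subgroup Kˣ} (hVT : VS K m k ⊓ TP K ≤ H)
    (hval : ∀ (Θ : (Kˣ ⧸ H) →* ℂˣ) (a : 𝓞 K) (u : Kˣ), a ≠ 0 → (u : K) = algebraMap (𝓞 K) K a →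
      Θ (QuotientGroup.mk' H u) = evI (Phi H x Θ) (Ideal.span {a}))
    (Θ : (Kˣ ⧸ H) →* ℂˣ) : IsRC (m ^ k) (Phi H x Θ) := by
  intro α hα0 hα1 hα2
  have hαK : algebraMap (𝓞 K) K α ≠ 0 := by simpa using hα0
  have hmem : Units.mk0 _ hαK ∈ H := hVT (one_mem_VT hk1 hα1 hα2 hαK)
  have h1 := hval Θ α (Units.mk0 _ hαK) hα0 rfl
  rw [← h1, QuotientGroup.mk'_apply, (QuotientGroup.eq_one_iff _).mpr hmem, map_one]

theorem Phi_frob (hFrob : PropFrob) (K L : Type) [Field K] [NumberField K] [Field L]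
    [NumberField L] [Algebra K L] [IsGalois K L] {m : ℕ} (hm0 : 0 < m) (hGL : Gen L m)
    {x : Ideal (𝓞 K) → Kˣ} {H : Subgroup Kˣ} (hNK : NK K L ≤ H)
    (hx2 : ∀ P : Ideal (𝓞 K), ¬ (P.IsPrime ∧ P ≠ ⊥ ∧ (m : 𝓞 K) ∉ P) → x P = 1)
    (hval : ∀ (Θ : (Kˣ ⧸ H) →* ℂˣ) (a : 𝓞 K) (u : Kˣ), a ≠ 0 → (u : K) = algebraMap (𝓞 K) K a →
      Θ (QuotientGroup.mk' H u) = evI (Phi H x Θ) (Ideal.span {a}))
    (Θ : (Kˣ ⧸ H) →* ℂˣ) {𝔭 : Ideal (𝓞 K)} (h𝔭 : 𝔭.IsPrime) (h𝔭0 : 𝔭 ≠ ⊥)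
    (hm𝔭 : (m : 𝓞 K) ∉ 𝔭) (τ : L ≃ₐ[K] L) (hτ : IsFrob K L 𝔭 τ) :
    Phi H x Θ 𝔭 ^ orderOf τ = 1 := by
  obtain ⟨P, hP, hP𝔭, f, hfτ, hf⟩ := hFrob K L 𝔭 h𝔭 h𝔭0 τ hτ
  have hP0 : P ≠ ⊥ := by
    rintro rfl
    apply h𝔭0
    rw [← hP𝔭]
    ext z
    rw [Ideal.mem_comap, Ideal.mem_bot, Ideal.mem_bot]
    exact map_eq_zero_iff _ (FaithfulSMul.algebraMap_injective _ _)
  have hmP : (m : 𝓞 L) ∉ P := by
    rw [← natCast_mem_comap (K := K), hP𝔭]; exact hm𝔭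
  have hY : ∀ Q : Ideal (𝓞 K), (m : 𝓞 K) ∈ Q → Phi H x Θ Q = 1 := by
    intro Q hQ
    rw [Phi_apply, hx2 Q (fun h => h.2.2 hQ), map_one, map_one]
  have hN : ∀ y ∈ NK K L, (Θ.comp (QuotientGroup.mk' H)) y = 1 := by
    intro y hy
    rw [MonoidHom.comp_apply, QuotientGroup.mk'_apply,
      (QuotientGroup.eq_one_iff y).mpr (hNK hy), map_one]
  have h1 : Phi H x Θ (P.comap (algebraMap (𝓞 K) (𝓞 L))) ^ f = 1 :=
    pow_eq_one_of_norm hm0 hGL (Y := Phi H x Θ) hY (Θ.comp (QuotientGroup.mk' H))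
      (fun a u ha hu => hval Θ a u ha hu) hN hP hP0 hmP (by rw [hP𝔭]; exact hf)
  rw [hP𝔭] at h1
  obtain ⟨c, hc⟩ := hfτ
  rw [hc, pow_mul, h1, one_pow]

theorem finite_dual {G : Type} [CommGroup G] (H : Subgroup G) (h : H.index ≠ 0) :
    Finite ((G ⧸ H) →* ℂˣ) ∧ Nat.card ((G ⧸ H) →* ℂˣ) = H.index := by
  have hFI : H.FiniteIndex := ⟨h⟩
  have hcardΘ : Nat.card ((G ⧸ H) →* ℂˣ) = Nat.card (G ⧸ H) :=
    CommGroup.card_monoidHom_of_hasEnoughRootsOfUnity _ ℂ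
  refine ⟨Nat.finite_of_card_ne_zero ?_, hcardΘ⟩
  rw [hcardΘ]
  exact Nat.card_pos.ne'

/-- The dual form of the index inequality for a fixed `m`. -/
theorem fi_core (hFrob : PropFrob) (K L : Type) [Field K] [NumberField K] [Field L] [NumberField L]
    [Algebra K L] [IsGalois K L] {m k : ℕ} (hm0 : 0 < m) (hGK : Gen K m) (hGL : Gen L m)
    (hk1 : 1 ≤ k) (H : Subgroup Kˣ) (hSU : SU K m ≤ H) (hVT : VS K m k ⊓ TP K ≤ H)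
    (hNK : NK K L ≤ H)
    (hidx0 : H.index ≠ 0) (hidx : Module.finrank K L ≤ H.index) :
    ∃ X : Subgroup (Ideal (𝓞 K) → ℂˣ), Finite X ∧ Module.finrank K L ≤ Nat.card X ∧
      ∀ Y ∈ X, Nrm (m ^ k) Y ∧ IsRC (m ^ k) Y ∧
        ∀ 𝔭 : Ideal (𝓞 K), 𝔭.IsPrime → 𝔭 ≠ ⊥ → ((m ^ k : ℕ) : 𝓞 K) ∉ 𝔭 → ∀ τ : L ≃ₐ[K] L,
          IsFrob K L 𝔭 τ → Y 𝔭 ^ orderOf τ = 1 := by
  obtain ⟨x, hx1, hx2⟩ := exists_xgen hGK
  obtain ⟨hfinΘ, hcardΘ⟩ := finite_dual H hidx0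
  have hval := Phi_val hx1 hx2 hSU
  have hinj := Phi_inj hval
  have hcard : Nat.card (Phi H x).range = Nat.card ((Kˣ ⧸ H) →* ℂˣ) :=
    Nat.card_range_of_injective hinj
  refine ⟨(Phi H x).range, Set.finite_range (Phi H x), ?_, ?_⟩
  · rw [hcard, hcardΘ]
    exact hidx
  · intro Y hY
    obtain ⟨Θ, hΘ⟩ := MonoidHom.mem_range.mp hY
    rw [← hΘ]
    exact ⟨Phi_nrm hk1 hx2 Θ, Phi_rc hk1 hVT hval Θ, fun 𝔭 h𝔭 h𝔭0 hM𝔭 τ hτ =>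
      Phi_frob hFrob K L hm0 hGL hNK hx2 hval Θ h𝔭 h𝔭0
        (fun h => hM𝔭 ((mem_pow_iff hk1 h𝔭).mpr h)) τ hτ⟩

/-- The product of the rational primes below ramified primes. -/
theorem exists_ram_prod (K L : Type) [Field K] [NumberField K] [Field L] [NumberField L]
    [Algebra K L] (T : Finset ℕ)
    (hT : ∀ p ∈ T, p.Prime → ∀ 𝔭 : Ideal (𝓞 K), 𝔭.IsPrime → (p : 𝓞 K) ∈ 𝔭 → Unram K L 𝔭) :
    ∃ R0 : ℕ, 0 < R0 ∧ (∀ 𝔭 : Ideal (𝓞 K), 𝔭.IsPrime → ¬ Unram K L 𝔭 → (R0 : 𝓞 K) ∈ 𝔭) ∧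
      ∀ p ∈ T, p.Prime → ¬ p ∣ R0 := by
  classical
  obtain ⟨N, hN0, hN⟩ := exists_ram_int (K := K) (L := L)
  let ram : ℕ → Prop := fun p => ∃ 𝔭 : Ideal (𝓞 K), 𝔭.IsPrime ∧ (p : 𝓞 K) ∈ 𝔭 ∧ ¬ Unram K L 𝔭
  set s : Finset ℕ := N.primeFactors.filter ram with hs
  have hsprime : ∀ p ∈ s, p.Prime := fun p hp =>
    Nat.prime_of_mem_primeFactors (Finset.mem_filter.mp hp).1
  refine ⟨∏ p ∈ s, p, Finset.prod_pos (fun p hp => (hsprime p hp).pos), ?_, ?_⟩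
  · intro 𝔭 h𝔭 hram
    obtain ⟨p, hp, hpN, hpP⟩ := exists_prime_mem h𝔭 hN0 (hN 𝔭 hram)
    have hps : p ∈ s := Finset.mem_filter.mpr
      ⟨Nat.mem_primeFactors.mpr ⟨hp, hpN, hN0.ne'⟩, 𝔭, h𝔭, hpP, hram⟩
    exact mem_natCast_prod hps hpP
  · intro p hpT hp hdvd
    obtain ⟨q, hq, hpq⟩ := (Nat.Prime.prime hp).exists_mem_finset_dvd hdvd
    have : p = q := (Nat.prime_dvd_prime_iff_eq hp (hsprime q hq)).mp hpq
    subst this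
    obtain ⟨𝔭, h1, h2, h3⟩ := (Finset.mem_filter.mp hq).2
    exact h3 (hT p hpT hp 𝔭 h1 h2)

theorem fi (hIdx : PropIdx) (hGen : PropGen) (hUnr : PropUnr) (hFrob : PropFrob) :
    FI_statement := by
  classical
  intro K L _ _ _ _ _ _ σ hσ T hT
  obtain ⟨R0, hR0pos, hR0ram, hR0T⟩ := exists_ram_prod K L T hT
  -- auxiliary primes
  set t : ℕ := ∏ p ∈ T.filter Nat.Prime, p with ht
  have htpos : 0 < t := Finset.prod_pos (fun p hp => (Finset.mem_filter.mp hp).2.pos)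
  obtain ⟨mK, hmK0, hmKt, hmKG⟩ := hGen K t htpos
  obtain ⟨mL, hmL0, hmLt, hmLG⟩ := hGen L t htpos
  set m : ℕ := R0 * mK * mL with hm
  have hm0 : 0 < m := by positivity
  have hmT : ∀ p ∈ T, p.Prime → ¬ p ∣ m := by
    intro p hpT hp hdvd
    have hpt : p ∣ t := Finset.dvd_prod_of_mem _ (Finset.mem_filter.mpr ⟨hpT, hp⟩)
    rcases (Nat.Prime.dvd_mul hp).mp hdvd with h | h
    · rcases (Nat.Prime.dvd_mul hp).mp h with h | h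
      · exact hR0T p hpT hp h
      · exact hp.one_lt.ne' (Nat.eq_one_of_dvd_coprimes hmKt h hpt)
    · exact hp.one_lt.ne' (Nat.eq_one_of_dvd_coprimes hmLt h hpt)
  have hGK : Gen K m := Gen_mono ⟨R0 * mL, by rw [hm]; ring⟩ hmKG
  have hGL : Gen L m := Gen_mono ⟨R0 * mK, by rw [hm]; ring⟩ hmLG
  have hunr : ∀ w : HeightOneSpectrum (𝓞 L), (m : 𝓞 L) ∉ w.asIdeal → Unr K w := by
    intro w hw
    rw [← hUnr K L w]
    by_contra hcon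
    have h1 := hR0ram _ (Ideal.IsPrime.comap _) hcon
    rw [natCast_mem_comap] at h1
    apply hw
    rw [hm, mul_assoc]
    push_cast
    exact w.asIdeal.mul_mem_right _ h1
  obtain ⟨k, hk1, hidx0, hidx⟩ := hIdx K L σ hσ m hm0 hGK hunr
  refine ⟨m ^ k, Nat.pow_pos hm0, ?_, ?_, fi_core hFrob K L hm0 hGK hGL hk1 _ le_sup_left
    (le_sup_left.trans le_sup_right) (le_sup_right.trans le_sup_right) hidx0 hidx⟩
  · intro p hpT hp hdvd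
    exact hmT p hpT hp (hp.dvd_of_dvd_pow hdvd)
  · intro 𝔭 h𝔭 _ hram
    rw [mem_pow_iff hk1 h𝔭, hm, mul_assoc]
    push_cast
    exact 𝔭.mul_mem_right _ (hR0ram 𝔭 h𝔭 hram)

end

end Vale.Agent.P022.CFT
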