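import Vale.Agent.P022.Iface

/-! Uniform 2-adic approximation of periodic functions (period a power of two) on `ℤ`
by polynomials. -/

namespace Vale.Agent.P022.H380

open Polynomial Finset

variable {v : AbsoluteValue ℂ ℝ}

theorem v_nat_le (hv : ∀ x y : ℂ, v (x + y) ≤ max (v x) (v y)) (n : ℕ) : v (n : ℂ) ≤ 1 := by
  induction n with
  | zero => simp
  | succ n ih =>
    push_cast
    refine (hv _ _).trans (max_le ih ?_)
    simp

theorem v_int_le (hv : ∀ x y : ℂ, v (x + y) ≤ max (v x) (v y)) (n : ℤ) : v (n : ℂ) ≤ 1 := by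
  obtain ⟨m, rfl | rfl⟩ := n.eq_nat_or_neg
  · simpa using v_nat_le hv m
  · push_cast
    rw [AbsoluteValue.map_neg]
    exact v_nat_le hv m

theorem v_sub_le (hv : ∀ x y : ℂ, v (x + y) ≤ max (v x) (v y)) (x y : ℂ) :
    v (x - y) ≤ max (v x) (v y) := by
  rw [sub_eq_add_neg]
  refine (hv _ _).trans ?_
  rw [AbsoluteValue.map_neg]

theorem v_add_le {c : ℝ} (hv : ∀ x y : ℂ, v (x + y) ≤ max (v x) (v y)) {x y : ℂ}
    (hx : v x ≤ c) (hy : v y ≤ c) : v (x + y) ≤ c := (hv _ _).trans (max_le hx hy)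

theorem v_sum_le {ι : Type*} (hv : ∀ x y : ℂ, v (x + y) ≤ max (v x) (v y)) {c : ℝ} (hc : 0 ≤ c)
    (s : Finset ι) (f : ι → ℂ) (h : ∀ i ∈ s, v (f i) ≤ c) : v (∑ i ∈ s, f i) ≤ c := by
  classical
  induction s using Finset.induction_on with
  | empty => simpa using hc
  | insert a s ha ih =>
    rw [Finset.sum_insert ha]
    exact v_add_le hv (h a (Finset.mem_insert_self _ _))
      (ih (fun i hi => h i (Finset.mem_insert_of_mem hi)))

theorem odd_pow_sub_one_dvd (x : ℤ) (hx : Odd x) (m : ℕ) : (2 : ℤ) ^ m ∣ x ^ (2 ^ m) - 1 := by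
  induction m with
  | zero => simp
  | succ m ih =>
    have h1 : x ^ 2 ^ (m + 1) - 1 = (x ^ 2 ^ m - 1) * (x ^ 2 ^ m + 1) := by
      rw [pow_succ 2 m, pow_mul]; ring
    rw [h1, pow_succ]
    refine mul_dvd_mul ih ?_
    have : Odd (x ^ 2 ^ m) := hx.pow
    exact even_iff_two_dvd.mp (this.add_odd odd_one)

/-- Approximation of the indicator function of the multiples of `2 ^ t`. -/
theorem exists_poly_ind (hv : TwoAdic v) (t : ℕ) : ∀ ε : ℝ, 0 < ε → ∃ P : ℂ[X], ∀ n : ℤ,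
    v (P.eval (n : ℂ) - (if (2 : ℤ) ^ t ∣ n then 1 else 0)) ≤ ε := by
  induction t with
  | zero =>
    intro ε hε
    refine ⟨1, fun n => ?_⟩
    simp [hε.le]
  | succ t ih =>
    intro ε hε
    obtain ⟨m, hm⟩ : ∃ m : ℕ, ((1 : ℝ) / 2) ^ m < ε := exists_pow_lt_of_lt_one hε (by norm_num)
    have h2 : ∀ k : ℕ, v ((2 : ℂ) ^ k) = (1 / 2 : ℝ) ^ k := fun k => by rw [map_pow, hv.two]
    set B : ℝ := ((2 : ℝ) ^ t) ^ (2 ^ m) with hB
    have hBpos : 0 < B := by positivity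
    obtain ⟨P, hP⟩ := ih (ε / B) (div_pos hε hBpos)
    refine ⟨P * (1 + C ((1 : ℂ) / 2 ^ t) * X) ^ (2 ^ m), fun n => ?_⟩
    set R : ℂ := ((1 + C ((1 : ℂ) / 2 ^ t) * X) ^ (2 ^ m) : ℂ[X]).eval (n : ℂ) with hR
    have hR' : R = (1 + (1 / 2 ^ t) * (n : ℂ)) ^ (2 ^ m) := by
      rw [hR]; simp
    have hvR : v R ≤ B := by
      rw [hR', map_pow, hB]
      refine pow_le_pow_left₀ (AbsoluteValue.nonneg _ _) ?_ _
      refine (hv.nonarch _ _).trans (max_le ?_ ?_)
      · rw [AbsoluteValue.map_one]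
        exact one_le_pow₀ (by norm_num)
      · rw [map_mul, map_div₀, h2, AbsoluteValue.map_one]
        have h3 : (1 : ℝ) / (1 / 2) ^ t = 2 ^ t := by
          rw [one_div_pow, one_div_one_div]
        rw [h3]
        have := v_int_le hv.nonarch n
        have h4 : (0 : ℝ) < 2 ^ t := by positivity
        nlinarith
    have heval : (P * (1 + C ((1 : ℂ) / 2 ^ t) * X) ^ (2 ^ m)).eval (n : ℂ) = P.eval (n : ℂ) * R := by
      rw [eval_mul]
    rw [heval]
    have hPR : v ((P.eval (n : ℂ) - (if (2 : ℤ) ^ t ∣ n then 1 else 0)) * R) ≤ ε := by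
      rw [map_mul]
      calc v (P.eval (n : ℂ) - (if (2 : ℤ) ^ t ∣ n then 1 else 0)) * v R
          ≤ (ε / B) * B := mul_le_mul (hP n) hvR (AbsoluteValue.nonneg _ _) (by positivity)
        _ = ε := by field_simp
    by_cases hdiv : (2 : ℤ) ^ t ∣ n
    · obtain ⟨k, hk⟩ := hdiv
      have hRk : R = ((1 + k : ℤ) : ℂ) ^ (2 ^ m) := by
        rw [hR', hk]; push_cast
        congr 1
        field_simp
      have hd : ((2 : ℤ) ^ (t + 1) ∣ n) ↔ Even k := by
        rw [hk, pow_succ, mul_dvd_mul_iff_left (by positivity), even_iff_two_dvd]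
      have hsmall : v (R - (if (2 : ℤ) ^ (t + 1) ∣ n then 1 else 0)) ≤ ε := by
        by_cases hk2 : Even k
        · rw [if_pos (hd.mpr hk2), hRk]
          obtain ⟨z, hz⟩ := odd_pow_sub_one_dvd (1 + k) (odd_one.add_even hk2) m
          have : (((1 + k : ℤ) : ℂ) ^ (2 ^ m) - 1) = (2 : ℂ) ^ m * (z : ℂ) := by
            have := congrArg (fun x : ℤ => (x : ℂ)) hz
            push_cast at this ⊢
            exact this
          rw [this, map_mul, h2]
          have hz1 := v_int_le hv.nonarch z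
          have h5 : (0 : ℝ) < (1 / 2) ^ m := by positivity
          nlinarith [AbsoluteValue.nonneg v (z : ℂ)]
        · rw [if_neg (fun h => hk2 (hd.mp h)), hRk, sub_zero]
          have hodd : Odd k := Int.not_even_iff_odd.mp hk2
          have h2k : (2 : ℤ) ∣ 1 + k := even_iff_two_dvd.mp (by
            rw [add_comm]; exact hodd.add_odd odd_one)
          have h6 : (2 : ℤ) ^ m ∣ (1 + k) ^ (2 ^ m) :=
            (pow_dvd_pow 2 (Nat.lt_two_pow_self).le).trans (pow_dvd_pow_of_dvd h2k _)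
          obtain ⟨z, hz⟩ := h6
          have : (((1 + k : ℤ) : ℂ) ^ (2 ^ m)) = (2 : ℂ) ^ m * (z : ℂ) := by
            have := congrArg (fun x : ℤ => (x : ℂ)) hz
            push_cast at this ⊢
            exact this
          rw [this, map_mul, h2]
          have hz1 := v_int_le hv.nonarch z
          have h5 : (0 : ℝ) < (1 / 2) ^ m := by positivity
          nlinarith [AbsoluteValue.nonneg v (z : ℂ)]
      rw [if_pos ⟨k, hk⟩] at hPR
      have : P.eval (n : ℂ) * R - (if (2 : ℤ) ^ (t + 1) ∣ n then 1 else 0)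
          = (P.eval (n : ℂ) - 1) * R + (R - (if (2 : ℤ) ^ (t + 1) ∣ n then 1 else 0)) := by ring
      rw [this]
      exact v_add_le hv.nonarch hPR hsmall
    · have hdiv' : ¬ (2 : ℤ) ^ (t + 1) ∣ n := fun h => hdiv ((pow_dvd_pow 2 (Nat.le_succ t)).trans h)
      rw [if_neg hdiv] at hPR
      rw [if_neg hdiv']
      simpa using hPR

/-- Approximation of functions which are periodic modulo `2 ^ t`. -/
theorem exists_poly_approx (hv : TwoAdic v) (t : ℕ) (g : ℕ → ℂ)
    (hg : ∀ a b : ℕ, a ≡ b [MOD 2 ^ t] → g a = g b) (ε : ℝ) (hε : 0 < ε) :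
    ∃ P : ℂ[X], ∀ n : ℕ, v (P.eval (n : ℂ) - g n) ≤ ε := by
  obtain ⟨C0, hC0⟩ : ∃ C0 : ℝ, 0 < C0 ∧ ∀ a ∈ range (2 ^ t), v (g a) ≤ C0 := by
    refine ⟨∑ a ∈ range (2 ^ t), v (g a) + 1, ?_, fun a ha => ?_⟩
    · have : 0 ≤ ∑ a ∈ range (2 ^ t), v (g a) := Finset.sum_nonneg (fun _ _ => AbsoluteValue.nonneg _ _)
      linarith
    · have := Finset.single_le_sum (f := fun a => v (g a)) (fun _ _ => AbsoluteValue.nonneg _ _) ha
      linarith
  obtain ⟨P, hP⟩ := exists_poly_ind hv t (ε / C0) (div_pos hε hC0.1)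
  refine ⟨∑ a ∈ range (2 ^ t), C (g a) * P.comp (X - C (a : ℂ)), fun n => ?_⟩
  have h1 : g n = ∑ a ∈ range (2 ^ t), g a * (if (2 : ℤ) ^ t ∣ ((n : ℤ) - a) then 1 else 0) := by
    rw [Finset.sum_eq_single (n % 2 ^ t)]
    · rw [if_pos, mul_one]
      · exact hg _ _ (Nat.mod_modEq _ _).symm
      · have := Int.emod_emod_of_dvd (n : ℤ) (dvd_refl ((2 : ℤ) ^ t))
        rw [← Int.modEq_iff_dvd]
        push_cast
        exact this
    · intro b hb hbn
      rw [if_neg, mul_zero]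
      intro h
      apply hbn
      have hb' : b < 2 ^ t := Finset.mem_range.mp hb
      have : (b : ℤ) ≡ n [ZMOD (2 : ℤ) ^ t] := Int.modEq_iff_dvd.mpr h
      have h2 : b ≡ n [MOD 2 ^ t] := by
        rw [← Int.natCast_modEq_iff]; push_cast; exact this
      rw [← Nat.mod_eq_of_lt hb']
      exact h2
    · intro h
      exact absurd (Finset.mem_range.mpr (Nat.mod_lt _ (by positivity))) h
  rw [h1, Polynomial.eval_finsetSum, ← Finset.sum_sub_distrib]
  refine v_sum_le hv.nonarch hε.le _ _ (fun a ha => ?_)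
  have h3 : (C (g a) * P.comp (X - C (a : ℂ))).eval (n : ℂ) -
      g a * (if (2 : ℤ) ^ t ∣ ((n : ℤ) - a) then 1 else 0)
      = g a * (P.eval (((n : ℤ) - a : ℤ) : ℂ) - (if (2 : ℤ) ^ t ∣ ((n : ℤ) - a) then 1 else 0)) := by
    rw [eval_mul, eval_C, eval_comp, eval_sub, eval_X, eval_C, mul_sub]
    push_cast
    rfl
  rw [h3, map_mul]
  calc v (g a) * v (P.eval (((n : ℤ) - a : ℤ) : ℂ) - (if (2 : ℤ) ^ t ∣ ((n : ℤ) - a) then 1 else 0))
      ≤ C0 * (ε / C0) := mul_le_mul (hC0.2 a ha) (hP _) (AbsoluteValue.nonneg _ _) hC0.1.le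
    _ = ε := mul_div_cancel₀ _ hC0.1.ne'

end Vale.Agent.P022.H380
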