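import Vale.Agent.P022.Sys
import Vale.Agent.P022.H380.Poly

/-! The criterion for systems of eigenvalues modulo `2 ^ m`. -/

namespace Vale.Agent.P022.H380

open UpperHalfPlane Matrix CongruenceSubgroup
open scoped ModularForm MatrixGroups

noncomputable section

theorem hasSum_congr_aux {f g : ℕ → ℂ} {a : ℂ} (h : HasSum f a) (e : ∀ n, g n = f n) :
    HasSum g a := by
  rwa [funext e]

theorem hasQ_add {f g : ℍ → ℂ} {a b : ℕ → ℂ} (hf : HasQ f a) (hg : HasQ g b) :
    HasQ (f + g) (a + b) := by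
  intro τ
  have := (hf τ).add (hg τ)
  rw [Pi.add_apply]
  refine hasSum_congr_aux this fun n => ?_
  rw [Pi.add_apply]
  ring

theorem hasQ_smul {f : ℍ → ℂ} {a : ℕ → ℂ} (hf : HasQ f a) (c : ℂ) : HasQ (c • f) (c • a) := by
  intro τ
  have := (hf τ).mul_left c
  rw [Pi.smul_apply, smul_eq_mul]
  refine hasSum_congr_aux this fun n => ?_
  rw [Pi.smul_apply, smul_eq_mul]
  ring

theorem hasQ_zero : HasQ (0 : ℍ → ℂ) 0 := by
  intro τ
  rw [Pi.zero_apply]
  refine hasSum_congr_aux hasSum_zero fun n => ?_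
  rw [Pi.zero_apply, zero_mul]

theorem hasQ_sum {ι : Type} (s : Finset ι) {f : ι → ℍ → ℂ} {a : ι → ℕ → ℂ}
    (h : ∀ i ∈ s, HasQ (f i) (a i)) : HasQ (∑ i ∈ s, f i) (∑ i ∈ s, a i) := by
  classical
  induction s using Finset.induction_on with
  | empty => simpa using hasQ_zero
  | insert i s hi ih =>
    rw [Finset.sum_insert hi, Finset.sum_insert hi]
    exact hasQ_add (h i (Finset.mem_insert_self _ _))
      (ih (fun j hj => h j (Finset.mem_insert_of_mem hj)))

section

variable (v : AbsoluteValue ℂ ℝ) (N : ℕ) [NeZero N] (m k : ℕ) (c D : ℕ → ℂ)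

/-- The forms `G = (G_i)` whose twists are congruent to `y D(u) c(n)`. -/
def Cls (G : ∀ i : Fin k, MF N (((i : ℕ) : ℤ) + 1)) (y : ℂ) : Prop :=
  ∀ u : ℕ, u.Coprime (2 * N) → ∃ b : ℕ → ℂ,
    HasQ (∑ i : Fin k, (u : ℂ) ^ (i : ℕ) • (diamond N (((i : ℕ) : ℤ) + 1) u (G i) : ℍ → ℂ)) b ∧
    ∀ n : ℕ, 0 < n → v (b n - y * (D u * c n)) ≤ (1 / 2) ^ m

variable {v N m k c D}

theorem Cls.add (hv : ∀ x y : ℂ, v (x + y) ≤ max (v x) (v y))
    {G G' : ∀ i : Fin k, MF N (((i : ℕ) : ℤ) + 1)} {y y' : ℂ} (h : Cls v N m k c D G y)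
    (h' : Cls v N m k c D G' y') : Cls v N m k c D (G + G') (y + y') := by
  intro u hu
  obtain ⟨b, hb1, hb2⟩ := h u hu
  obtain ⟨b', hb1', hb2'⟩ := h' u hu
  refine ⟨b + b', ?_, ?_⟩
  · have := hasQ_add hb1 hb1'
    rw [← Finset.sum_add_distrib] at this
    convert this using 1
    refine Finset.sum_congr rfl fun i _ => ?_
    rw [Pi.add_apply, map_add, ← smul_add]
    rfl
  · intro n hn
    have e : (b + b') n - (y + y') * (D u * c n) = (b n - y * (D u * c n)) + (b' n - y' * (D u * c n)) := by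
      rw [Pi.add_apply]; ring
    rw [e]
    exact v_add_le hv (hb2 n hn) (hb2' n hn)

theorem Cls.smul {G : ∀ i : Fin k, MF N (((i : ℕ) : ℤ) + 1)} {y : ℂ}
    (h : Cls v N m k c D G y) {a : ℂ} (ha : v a ≤ 1) :
    Cls v N m k c D (a • G) (a * y) := by
  intro u hu
  obtain ⟨b, hb1, hb2⟩ := h u hu
  refine ⟨a • b, ?_, ?_⟩
  · have := hasQ_smul hb1 a
    rw [Finset.smul_sum] at this
    convert this using 1
    refine Finset.sum_congr rfl fun i _ => ?_
    rw [Pi.smul_apply, map_smul, smul_comm]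
    rfl
  · intro n hn
    have e : (a • b) n - a * y * (D u * c n) = a * (b n - y * (D u * c n)) := by
      rw [Pi.smul_apply, smul_eq_mul]; ring
    rw [e, map_mul]
    calc v a * v (b n - y * (D u * c n)) ≤ 1 * (1 / 2) ^ m :=
          mul_le_mul ha (hb2 n hn) (AbsoluteValue.nonneg _ _) zero_le_one
      _ = (1 / 2) ^ m := one_mul _

theorem Cls.diamond {G : ∀ i : Fin k, MF N (((i : ℕ) : ℤ) + 1)} {y : ℂ}
    (h : Cls v N m k c D G y) {l : ℕ} (hl : l.Coprime (2 * N)) {dl : ℂ}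
    (hD : ∀ u : ℕ, u.Coprime (2 * N) → D (u * l) = D u * dl) :
    Cls v N m k c D (fun i => ((l : ℂ) ^ (i : ℕ)) • Vale.Agent.P022.diamond N (((i : ℕ) : ℤ) + 1) l (G i))
      (dl * y) := by
  intro u hu
  obtain ⟨b, hb1, hb2⟩ := h (u * l) (Nat.Coprime.mul_left hu hl)
  have hlN : l.Coprime N := hl.coprime_dvd_right (dvd_mul_left _ _)
  have huN : u.Coprime N := hu.coprime_dvd_right (dvd_mul_left _ _)
  refine ⟨b, ?_, ?_⟩
  · convert hb1 using 1
    refine Finset.sum_congr rfl fun i _ => ?_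
    rw [map_smul, diamond_diamond huN hlN, mul_comm l u]
    push_cast
    rw [mul_pow, mul_smul]
  · intro n hn
    have := hb2 n hn
    rw [hD u hu] at this
    have e : b n - dl * y * (D u * c n) = b n - y * (D u * dl * c n) := by ring
    rw [e]
    exact this

theorem Cls.hecke (h1 : Q1_statement) (h2 : Q2_statement)
    (hv : ∀ x y : ℂ, v (x + y) ≤ max (v x) (v y))
    {G : ∀ i : Fin k, MF N (((i : ℕ) : ℤ) + 1)} {y : ℂ}
    (h : Cls v N m k c D G y) {l : ℕ} (hl : l.Prime) (hl2 : l.Coprime (2 * N)) (hlN : ¬ l ∣ N)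
    {dl tl : ℂ}
    (hD : ∀ u : ℕ, u.Coprime (2 * N) → D (u * l) = D u * dl)
    (ht : ∀ n : ℕ, 0 < n → c (n * l) + dl * (if l ∣ n then c (n / l) else 0) = tl * c n) :
    Cls v N m k c D (fun i => heckeOp N (((i : ℕ) : ℤ) + 1) l hl hlN (G i)) (tl * y) := by
  intro u hu
  have hlN' : l.Coprime N := hl2.coprime_dvd_right (dvd_mul_left _ _)
  have huN : u.Coprime N := hu.coprime_dvd_right (dvd_mul_left _ _)
  obtain ⟨b, hb1, hb2⟩ := h u hu
  obtain ⟨b', hb1', hb2'⟩ := h (u * l) (Nat.Coprime.mul_left hu hl2)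
  -- expansions of the pieces
  have hex : ∀ i : Fin k, ∃ a a' : ℕ → ℂ,
      HasQ (Vale.Agent.P022.diamond N (((i : ℕ) : ℤ) + 1) u (G i)) a ∧
      HasQ (Vale.Agent.P022.diamond N (((i : ℕ) : ℤ) + 1) (u * l) (G i)) a' := fun i => by
    obtain ⟨a, ha⟩ := h2.1 N _ (Vale.Agent.P022.diamond N (((i : ℕ) : ℤ) + 1) u (G i))
    obtain ⟨a', ha'⟩ := h2.1 N _ (Vale.Agent.P022.diamond N (((i : ℕ) : ℤ) + 1) (u * l) (G i))
    exact ⟨a, a', ha, ha'⟩
  choose a a' ha ha' using hex
  have hb : b = ∑ i : Fin k, (u : ℂ) ^ (i : ℕ) • a i :=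
    h2.2 _ _ _ hb1 (hasQ_sum _ fun i _ => hasQ_smul (ha i) _)
  have hb' : b' = ∑ i : Fin k, ((u * l : ℕ) : ℂ) ^ (i : ℕ) • a' i :=
    h2.2 _ _ _ hb1' (hasQ_sum _ fun i _ => hasQ_smul (ha' i) _)
  refine ⟨fun n => b (n * l) + (if l ∣ n then b' (n / l) else 0), ?_, ?_⟩
  · have hpiece : ∀ i : Fin k, HasQ (Vale.Agent.P022.diamond N (((i : ℕ) : ℤ) + 1) u
        (heckeOp N (((i : ℕ) : ℤ) + 1) l hl hlN (G i)))
        (fun n => a i (n * l) + (l : ℂ) ^ (i : ℕ) * (if l ∣ n then a' i (n / l) else 0)) := by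
      intro i
      rw [heckeOp_diamond hl hlN huN]
      have h3 : HasQ (Vale.Agent.P022.diamond N (((i : ℕ) : ℤ) + 1) l
          (Vale.Agent.P022.diamond N (((i : ℕ) : ℤ) + 1) u (G i))) (a' i) := by
        rw [diamond_diamond hlN' huN]
        exact ha' i
      have h4 := h1 N (((i : ℕ) : ℤ) + 1) l hl hlN _ _ _ (ha i) h3
      have h5 : (l : ℂ) ^ ((((i : ℕ) : ℤ) + 1) - 1) = (l : ℂ) ^ (i : ℕ) := by
        rw [add_sub_cancel_right, zpow_natCast]
      rw [h5] at h4
      exact h4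
    have hs := hasQ_sum Finset.univ fun i _ => hasQ_smul (hpiece i) ((u : ℂ) ^ (i : ℕ))
    convert hs using 1
    ext n
    rw [Finset.sum_apply, hb, hb', Finset.sum_apply, Finset.sum_apply]
    by_cases hln : l ∣ n
    · simp only [if_pos hln, Pi.smul_apply, smul_eq_mul]
      rw [← Finset.sum_add_distrib]
      refine Finset.sum_congr rfl fun i _ => ?_
      push_cast
      rw [mul_pow]
      ring
    · simp only [if_neg hln, Pi.smul_apply, smul_eq_mul, add_zero, mul_zero]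
  · intro n hn
    have hnl : 0 < n * l := Nat.mul_pos hn hl.pos
    by_cases hln : l ∣ n
    · simp only [if_pos hln]
      have hnl' : 0 < n / l := Nat.div_pos (Nat.le_of_dvd hn hln) hl.pos
      have e1 := hb2 (n * l) hnl
      have e2 := hb2' (n / l) hnl'
      rw [hD u hu] at e2
      have e3 := ht n hn
      rw [if_pos hln] at e3
      have e : b (n * l) + b' (n / l) - tl * y * (D u * c n)
          = (b (n * l) - y * (D u * c (n * l))) + (b' (n / l) - y * (D u * dl * c (n / l))) := by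
        linear_combination (y * D u) * e3
      rw [e]
      exact v_add_le hv e1 e2
    · simp only [if_neg hln]
      have e1 := hb2 (n * l) hnl
      have e3 := ht n hn
      rw [if_neg hln] at e3
      have e : b (n * l) + 0 - tl * y * (D u * c n) = (b (n * l) - y * (D u * c (n * l))) := by
        linear_combination (y * D u) * e3
      rw [e]
      exact e1

end

/-- The criterion without integrality hypotheses. -/
theorem Q3' (h1 : Q1_statement) (h2 : Q2_statement) (v : AbsoluteValue ℂ ℝ) (hv : TwoAdic v) (N : ℕ)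
    [NeZero N] (m k : ℕ) (G : ∀ i : Fin k, MF N (((i : ℕ) : ℤ) + 1)) (c t d D : ℕ → ℂ)
    (hD1 : D 1 = 1) (hc1 : c 1 = 1)
    (hl : ∀ l : ℕ, l.Prime → ¬ l ∣ 2 * N →
      (∀ u : ℕ, u.Coprime (2 * N) → D (u * l) = D u * d l) ∧
      ∀ n : ℕ, 0 < n → c (n * l) + d l * (if l ∣ n then c (n / l) else 0) = t l * c n)
    (hG : ∀ u : ℕ, u.Coprime (2 * N) → ∃ b : ℕ → ℂ,
      HasQ (∑ i : Fin k, (u : ℂ) ^ (i : ℕ) • (diamond N (((i : ℕ) : ℤ) + 1) u (G i) : ℍ → ℂ)) b ∧
      ∀ n : ℕ, 0 < n → v (b n - D u * c n) ≤ (1 / 2) ^ m)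
    (P : FreeAlgebra ℤ (Gen N)) (hP : opsHom N k P = 0) : v (evHom N t d P) ≤ (1 / 2) ^ m := by
  have hstart : Cls v N m k c D G 1 := by
    intro u hu
    obtain ⟨b, hb1, hb2⟩ := hG u hu
    exact ⟨b, hb1, fun n hn => by rw [one_mul]; exact hb2 n hn⟩
  have key : ∀ P : FreeAlgebra ℤ (Gen N), ∀ (G : ∀ i : Fin k, MF N (((i : ℕ) : ℤ) + 1)) (y : ℂ),
      Cls v N m k c D G y →
      Cls v N m k c D (fun i => (opsHom N k P) i (G i)) (evHom N t d P * y) := by
    intro P
    induction P using FreeAlgebra.induction with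
    | grade0 r =>
      intro G y h
      have h3 := h.smul (a := (r : ℂ)) (v_int_le hv.nonarch r)
      rw [AlgHom.commutes, AlgHom.commutes]
      convert h3 using 1
      · ext i : 1
        rw [Pi.smul_apply]
        change ((algebraMap ℤ (Module.End ℂ (MF N (((i : ℕ) : ℤ) + 1)))) r) (G i) = _
        rw [Module.algebraMap_end_apply]
        exact (Int.cast_smul_eq_zsmul ℂ r (G i)).symm
      · simp
    | grade1 x =>
      intro G y h
      obtain ⟨⟨l, hlp, hlN⟩, s⟩ := x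
      have hl2 : l.Coprime (2 * N) := (Nat.Prime.coprime_iff_not_dvd hlp).mpr hlN
      have h4 := hl l hlp hlN
      cases s with
      | false =>
        have h5 := h.hecke h1 h2 hv.nonarch hlp hl2 (fun h => hlN (h.mul_left 2)) h4.1 h4.2
        convert h5 using 1
        · ext i : 1
          rw [opsHom, FreeAlgebra.lift_ι_apply]
          rfl
        · rw [evHom, FreeAlgebra.lift_ι_apply]
          rfl
      | true =>
        have h5 := h.diamond hl2 h4.1
        convert h5 using 1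
        · ext i : 1
          rw [opsHom, FreeAlgebra.lift_ι_apply]
          rfl
        · rw [evHom, FreeAlgebra.lift_ι_apply]
          rfl
    | mul a b iha ihb =>
      intro G y h
      have h3 := iha _ _ (ihb G y h)
      rw [← mul_assoc] at h3
      rw [map_mul, map_mul]
      exact h3
    | add a b iha ihb =>
      intro G y h
      have h3 := (iha G y h).add hv.nonarch (ihb G y h)
      rw [← add_mul] at h3
      rw [map_add, map_add]
      exact h3
  have h3 := key P G 1 hstart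
  rw [hP, mul_one] at h3
  obtain ⟨b, hb1, hb2⟩ := h3 1 (Nat.coprime_one_left _)
  have hzero : b = 0 := by
    apply h2.2 _ _ _ hb1
    have e : (∑ i : Fin k, ((1 : ℕ) : ℂ) ^ (i : ℕ) •
        (diamond N (((i : ℕ) : ℤ) + 1) 1 ((0 : BigEnd N k) i (G i)) : ℍ → ℂ)) = 0 := by
      refine Finset.sum_eq_zero fun i _ => ?_
      rw [Pi.zero_apply, LinearMap.zero_apply, map_zero]
      rw [FunLike.coe_zero, smul_zero]
    rw [e]
    exact hasQ_zero
  have h4 := hb2 1 one_pos
  rw [hzero, hD1, hc1, Pi.zero_apply, zero_sub, mul_one, mul_one, AbsoluteValue.map_neg] at h4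
  exact h4

theorem Q3 (h1 : Q1_statement) (h2 : Q2_statement) : Q3_statement := by
  intro v hv N _ m k G c t d D hD1 hc1 _ _ hl hG P hP
  exact Q3' h1 h2 v hv N m k G c t d D hD1 hc1 (fun l h3 h4 => (hl l h3 h4).2.2) hG P hP

end

end Vale.Agent.P022.H380
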