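import Vale.Agent.P022.Iface

/-! Characters modulo powers of two: `μ = ν ^ 2` or `μ = ν ^ 2 * χ₄` with `ν` even. -/

namespace Vale.Agent.P022.H380

open Finset

theorem sq_sub_one_dvd {S : ℕ} (hS : 1 ≤ S) {a : ℤ} (h : (2 : ℤ) ^ (S + 1) ∣ a ^ 2 - 1) :
    (2 : ℤ) ^ S ∣ a - 1 ∨ (2 : ℤ) ^ S ∣ a + 1 := by
  obtain ⟨T, rfl⟩ : ∃ T, S = T + 1 := ⟨S - 1, by omega⟩
  have hodd : Odd a := by
    by_contra hne
    have he : Even a := Int.not_odd_iff_even.mp hne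
    have h2 : (2 : ℤ) ∣ a ^ 2 - 1 := (dvd_pow_self 2 (by omega)).trans h
    have h3 : Even (a ^ 2) := by
      rw [pow_two]; exact he.mul_left a
    rw [← even_iff_two_dvd] at h2
    have h4 := h3.sub h2
    simp at h4
  obtain ⟨b, rfl⟩ := hodd
  have h1 : (2 * b + 1) ^ 2 - 1 = 4 * (b * (b + 1)) := by ring
  have h2 : (2 : ℤ) ^ (T + 1 + 1) = 4 * 2 ^ T := by ring
  rw [h1, h2, mul_dvd_mul_iff_left (by norm_num)] at h
  have h3 : (2 * b + 1) - 1 = 2 * b := by ring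
  have h4 : (2 * b + 1) + 1 = 2 * (b + 1) := by ring
  have h5 : (2 : ℤ) ^ (T + 1) = 2 * 2 ^ T := by ring
  rw [h3, h4, h5, mul_dvd_mul_iff_left (by norm_num), mul_dvd_mul_iff_left (by norm_num)]
  rcases Int.even_or_odd b with hb | hb
  · left
    have hc : IsCoprime ((2 : ℤ) ^ T) (b + 1) := by
      apply IsCoprime.pow_left
      rw [Int.isCoprime_iff_gcd_eq_one]
      have : Odd (b + 1) := hb.add_one
      exact Int.isCoprime_iff_gcd_eq_one.mp (Int.isCoprime_two_left.mpr this)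
    exact hc.dvd_of_dvd_mul_right h
  · right
    have hc : IsCoprime ((2 : ℤ) ^ T) b := by
      apply IsCoprime.pow_left
      exact Int.isCoprime_two_left.mpr hb
    exact hc.dvd_of_dvd_mul_left h

/-- A character which is trivial on the kernel of squaring is a square. -/
theorem exists_sqrt_of_ker {G : Type} [CommGroup G] [Finite G] (μ : G →* ℂˣ)
    (h : ∀ x : G, x ^ 2 = 1 → μ x = 1) : ∃ ν : G →* ℂˣ, ∀ x, μ x = ν x ^ 2 := by
  classical
  set sq : G →* G := powMonoidHom 2 with hsq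
  have hker : sq.ker ≤ μ.ker := fun x hx => by
    rw [MonoidHom.mem_ker] at hx ⊢
    exact h x hx
  let ρ : sq.range →* ℂˣ :=
    (QuotientGroup.lift sq.ker μ (fun x hx => hker hx)).comp
      (QuotientGroup.quotientKerEquivRange sq).symm.toMonoidHom
  have hρ : ∀ x : G, ρ ⟨sq x, ⟨x, rfl⟩⟩ = μ x := by
    intro x
    have : (QuotientGroup.quotientKerEquivRange sq).symm ⟨sq x, ⟨x, rfl⟩⟩
        = (QuotientGroup.mk x : G ⧸ sq.ker) := by
      rw [MulEquiv.symm_apply_eq]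
      rfl
    simp only [ρ, MonoidHom.comp_apply, MulEquiv.toMonoidHom_eq_coe, MonoidHom.coe_coe]
    rw [this]
    rfl
  obtain ⟨ν, hν⟩ := MonoidHom.domRestrict_surjective (M := ℂ) sq.range ρ
  refine ⟨ν, fun x => ?_⟩
  rw [← map_pow, ← hρ x, ← hν]
  rfl

/-- The character `χ₄` as a character of `(ZMod (2 ^ (S + 2)))ˣ`. -/
noncomputable def X4 (S : ℕ) : (ZMod (2 ^ (S + 2)))ˣ →* ℂˣ :=
  Units.map (((ZMod.χ₄.ringHomComp (Int.castRingHom ℂ)).toMonoidHom).comp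
    ((ZMod.castHom (show 4 ∣ 2 ^ (S + 2) from ⟨2 ^ S, by ring⟩) (ZMod 4)) : ZMod (2 ^ (S + 2)) →* ZMod 4))

theorem X4_apply (S : ℕ) (u : (ZMod (2 ^ (S + 2)))ˣ) (n : ℕ)
    (hn : (u : ZMod (2 ^ (S + 2))) = n) : (X4 S u : ℂ) = ((ZMod.χ₄ (n : ZMod 4) : ℤ) : ℂ) := by
  simp only [X4, Units.coe_map, MonoidHom.comp_apply]
  rw [hn]
  simp

theorem X4_neg_one (S : ℕ) : X4 S (-1) = -1 := by
  ext
  rw [X4_apply S (-1) (2 ^ (S + 2) - 1) (by
    rw [Nat.cast_sub (Nat.one_le_two_pow)]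
    simp)]
  have h : (2 ^ (S + 2) - 1) % 4 = 3 := by
    have h1 : 2 ^ (S + 2) = 4 * 2 ^ S := by ring
    have h2 : 0 < 2 ^ S := by positivity
    omega
  rw [ZMod.χ₄_nat_three_mod_four h]
  simp

theorem X4_sq (S : ℕ) (u : (ZMod (2 ^ (S + 2)))ˣ) : X4 S u ^ 2 = 1 := by
  ext
  obtain ⟨n, hn⟩ : ∃ n : ℕ, (u : ZMod (2 ^ (S + 2))) = n := ⟨(u : ZMod (2 ^ (S + 2))).val, by simp⟩
  rw [Units.val_pow_eq_pow_val, X4_apply S u n hn]
  have hodd : n % 2 = 1 := by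
    have h1 : IsUnit ((n : ZMod (2 ^ (S + 2)))) := hn ▸ u.isUnit
    rw [ZMod.isUnit_iff_coprime] at h1
    have h2 : Nat.Coprime n 2 := Nat.Coprime.coprime_dvd_right (dvd_pow_self 2 (by omega)) h1
    rcases Nat.even_or_odd n with he | ho
    · exfalso
      have := Nat.dvd_gcd (even_iff_two_dvd.mp he) (dvd_refl 2)
      rw [h2] at this
      omega
    · exact Nat.odd_iff.mp ho
  rw [ZMod.χ₄_nat_eq_if_mod_four]
  rw [if_neg (by omega)]
  split_ifs <;> simp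

theorem exists_sqrt (S : ℕ) (μ : (ZMod (2 ^ (S + 3)))ˣ →* ℂˣ)
    (hμ : ∀ u : (ZMod (2 ^ (S + 3)))ˣ, ZMod.unitsMap (pow_dvd_pow 2 (Nat.le_succ (S + 2))) u = 1 → μ u = 1) :
    ∃ ν : (ZMod (2 ^ (S + 3)))ˣ →* ℂˣ, ν (-1) = 1 ∧
      ((∀ u, μ u = ν u ^ 2) ∨ (∀ u, μ u = ν u ^ 2 * X4 (S + 1) u)) := by
  -- even case
  have key : ∀ μ : (ZMod (2 ^ (S + 3)))ˣ →* ℂˣ,
      (∀ u : (ZMod (2 ^ (S + 3)))ˣ, ZMod.unitsMap (pow_dvd_pow 2 (Nat.le_succ (S + 2))) u = 1 → μ u = 1) →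
      μ (-1) = 1 → ∃ ν : (ZMod (2 ^ (S + 3)))ˣ →* ℂˣ, ν (-1) = 1 ∧ ∀ u, μ u = ν u ^ 2 := by
    intro μ hμ h1
    have hker : ∀ x : (ZMod (2 ^ (S + 3)))ˣ, x ^ 2 = 1 → μ x = 1 := by
      intro x hx
      obtain ⟨n, hn⟩ : ∃ n : ℕ, (x : ZMod (2 ^ (S + 3))) = n :=
        ⟨(x : ZMod (2 ^ (S + 3))).val, by simp⟩
      have h2 : (((n : ℤ) ^ 2 - 1 : ℤ) : ZMod (2 ^ (S + 3))) = 0 := by
        push_cast
        rw [← hn, ← Units.val_pow_eq_pow_val, hx]
        simp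
      rw [ZMod.intCast_zmod_eq_zero_iff_dvd] at h2
      push_cast at h2
      rcases sq_sub_one_dvd (S := S + 2) (by omega) h2 with h3 | h3
      · apply hμ
        ext
        rw [ZMod.unitsMap_val, hn]
        have : (((n : ℤ) - 1 : ℤ) : ZMod (2 ^ (S + 2))) = 0 := by
          rw [ZMod.intCast_zmod_eq_zero_iff_dvd]; push_cast; exact h3
        push_cast at this
        rw [ZMod.cast_natCast (pow_dvd_pow 2 (Nat.le_succ (S + 2)))]
        simpa [sub_eq_zero] using this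
      · have h4 : μ (-x) = 1 := by
          apply hμ
          ext
          rw [ZMod.unitsMap_val, Units.val_neg, hn]
          have : (((n : ℤ) + 1 : ℤ) : ZMod (2 ^ (S + 2))) = 0 := by
            rw [ZMod.intCast_zmod_eq_zero_iff_dvd]; push_cast; exact h3
          push_cast at this
          rw [ZMod.cast_neg (pow_dvd_pow 2 (Nat.le_succ (S + 2))),
            ZMod.cast_natCast (pow_dvd_pow 2 (Nat.le_succ (S + 2)))]
          rw [Units.val_one]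
          linear_combination -this
        have h5 : x = (-1) * (-x) := by simp
        rw [h5, map_mul, h1, h4, one_mul]
    obtain ⟨ν, hν⟩ := exists_sqrt_of_ker μ hker
    have h2 : ν (-1) ^ 2 = 1 := by rw [← hν, h1]
    have h3 : ν (-1) = 1 ∨ ν (-1) = -1 := by
      rw [Units.ext_iff, Units.ext_iff]
      have : (ν (-1) : ℂ) ^ 2 = 1 := by
        rw [← Units.val_pow_eq_pow_val, h2]; simp
      simpa using sq_eq_one_iff.mp this
    rcases h3 with h3 | h3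
    · exact ⟨ν, h3, hν⟩
    · refine ⟨ν * X4 (S + 1), ?_, fun u => ?_⟩
      · rw [MonoidHom.mul_apply, h3, X4_neg_one]; simp
      · rw [MonoidHom.mul_apply, mul_pow, X4_sq, mul_one, hν]
  have hm1 : μ (-1) ^ 2 = 1 := by rw [← map_pow]; simp
  have h3 : μ (-1) = 1 ∨ μ (-1) = -1 := by
    rw [Units.ext_iff, Units.ext_iff]
    have : (μ (-1) : ℂ) ^ 2 = 1 := by
      rw [← Units.val_pow_eq_pow_val, hm1]; simp
    simpa using sq_eq_one_iff.mp this
  rcases h3 with h3 | h3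
  · obtain ⟨ν, h4, h5⟩ := key μ hμ h3
    exact ⟨ν, h4, Or.inl h5⟩
  · obtain ⟨ν, h4, h5⟩ := key (μ * X4 (S + 1)) (by
      intro u hu
      rw [MonoidHom.mul_apply, hμ u hu, one_mul]
      ext
      obtain ⟨n, hn⟩ : ∃ n : ℕ, (u : ZMod (2 ^ (S + 3))) = n :=
        ⟨(u : ZMod (2 ^ (S + 3))).val, by simp⟩
      rw [X4_apply (S + 1) u n hn]
      have h6 : ((n : ZMod (2 ^ (S + 2)))) = 1 := by
        have := congrArg (fun x : (ZMod (2 ^ (S + 2)))ˣ => (x : ZMod (2 ^ (S + 2)))) hu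
        simp only [ZMod.unitsMap_val, hn, Units.val_one] at this
        rwa [ZMod.cast_natCast (pow_dvd_pow 2 (Nat.le_succ (S + 2)))] at this
      have h7 : ((n : ZMod 4)) = 1 := by
        have h8 : 4 ∣ 2 ^ (S + 2) := ⟨2 ^ S, by ring⟩
        have := congrArg (ZMod.castHom h8 (ZMod 4)) h6
        rwa [map_natCast, map_one] at this
      rw [h7]; simp) (by rw [MonoidHom.mul_apply, h3, X4_neg_one]; simp)
    refine ⟨ν, h4, Or.inr fun u => ?_⟩
    rw [← h5 u, MonoidHom.mul_apply, mul_assoc, ← pow_two, X4_sq, mul_one]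

end Vale.Agent.P022.H380
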