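import Vale.Agent.P022.H116.Spec

/-! Package P12a7, part A: ray characters attached to characters of `Kˣ`. -/

namespace Vale.Agent.P022.CFT

open NumberField IsDedekindDomain UniqueFactorizationMonoid
open Vale.Agent.P024.M3 (h0 h1 e1 dd nn RR VS Unr)

noncomputable section

set_option linter.unusedSectionVars false

section evI

variable {K : Type} [Field K] [NumberField K] {A : Type*} [CommGroup A]

theorem evI_one (Y : Ideal (𝓞 K) → A) : evI Y 1 = 1 := by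
  unfold evI
  rw [normalizedFactors_one]
  simp

theorem evI_mul (Y : Ideal (𝓞 K) → A) {I J : Ideal (𝓞 K)} (hI : I ≠ 0) (hJ : J ≠ 0) :
    evI Y (I * J) = evI Y I * evI Y J := by
  unfold evI
  rw [normalizedFactors_mul hI hJ, Multiset.map_add, Multiset.prod_add]

theorem evI_prime (Y : Ideal (𝓞 K) → A) {P : Ideal (𝓞 K)} (hP : P.IsPrime) (h0 : P ≠ ⊥) :
    evI Y P = Y P := by
  unfold evI
  rw [normalizedFactors_irreducible (Ideal.prime_of_isPrime h0 hP).irreducible]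
  simp

theorem evI_pow (Y : Ideal (𝓞 K) → A) {I : Ideal (𝓞 K)} (n : ℕ) : evI Y (I ^ n) = evI Y I ^ n := by
  unfold evI
  rw [normalizedFactors_pow, Multiset.map_nsmul, Multiset.prod_nsmul]

theorem evI_eq_one (Y : Ideal (𝓞 K) → A) {I : Ideal (𝓞 K)} (h : ∀ P ∈ normalizedFactors I, Y P = 1) :
    evI Y I = 1 := by
  unfold evI
  apply Multiset.prod_eq_one
  intro x hx
  obtain ⟨P, hP, rfl⟩ := Multiset.mem_map.mp hx
  exact h P hP

theorem isPrime_of_mem_normalizedFactors {I P : Ideal (𝓞 K)} (h : P ∈ normalizedFactors I) :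
    P.IsPrime ∧ P ≠ ⊥ := by
  have h1 := prime_of_normalized_factor P h
  exact ⟨Ideal.isPrime_of_prime h1, h1.ne_zero⟩

/-- Compatibility of `evI` with homomorphisms. -/
theorem map_evI {B : Type*} [CommGroup B] (f : A →* B) (Y : Ideal (𝓞 K) → A) (I : Ideal (𝓞 K)) :
    f (evI Y I) = evI (fun P => f (Y P)) I := by
  unfold evI
  rw [map_multiset_prod, Multiset.map_map]
  rfl

theorem evI_mul_fun (Y Z : Ideal (𝓞 K) → A) (I : Ideal (𝓞 K)) :
    evI (fun P => Y P * Z P) I = evI Y I * evI Z I := by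
  unfold evI
  rw [Multiset.prod_map_mul]

end evI

section main

variable {K : Type} [Field K] [NumberField K]

/-- The choice of generators of the primes outside `m` up to `m`-units. -/
theorem exists_xgen {m : ℕ} (hG : Gen K m) : ∃ x : Ideal (𝓞 K) → Kˣ,
    (∀ v : HeightOneSpectrum (𝓞 K), (m : 𝓞 K) ∉ v.asIdeal →
      v.valuation K (x v.asIdeal : K) = WithZero.exp (-1 : ℤ) ∧
      ∀ w : HeightOneSpectrum (𝓞 K), w ≠ v → (m : 𝓞 K) ∉ w.asIdeal →
        w.valuation K (x v.asIdeal : K) = 1) ∧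
    ∀ P : Ideal (𝓞 K), ¬ (P.IsPrime ∧ P ≠ ⊥ ∧ (m : 𝓞 K) ∉ P) → x P = 1 := by
  classical
  unfold Gen at hG
  choose g hg1 hg2 using hG
  refine ⟨fun P => if h : P.IsPrime ∧ P ≠ ⊥ ∧ (m : 𝓞 K) ∉ P then
    g ⟨P, h.1, h.2.1⟩ h.2.2 else 1, ?_, ?_⟩
  · intro v hv
    have h : v.asIdeal.IsPrime ∧ v.asIdeal ≠ ⊥ ∧ (m : 𝓞 K) ∉ v.asIdeal := ⟨v.isPrime, v.ne_bot, hv⟩
    simp only [dif_pos h]
    exact ⟨hg1 v hv, fun w hw hmw => hg2 v hv w hw hmw⟩
  · intro P hP
    simp only [dif_neg hP]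

theorem val_evI_x {m : ℕ} {x : Ideal (𝓞 K) → Kˣ}
    (hx1 : ∀ v : HeightOneSpectrum (𝓞 K), (m : 𝓞 K) ∉ v.asIdeal →
      v.valuation K (x v.asIdeal : K) = WithZero.exp (-1 : ℤ) ∧
      ∀ w : HeightOneSpectrum (𝓞 K), w ≠ v → (m : 𝓞 K) ∉ w.asIdeal →
        w.valuation K (x v.asIdeal : K) = 1)
    (hx2 : ∀ P : Ideal (𝓞 K), ¬ (P.IsPrime ∧ P ≠ ⊥ ∧ (m : 𝓞 K) ∉ P) → x P = 1)
    {a : 𝓞 K} (ha : a ≠ 0) (w : HeightOneSpectrum (𝓞 K)) (hw : (m : 𝓞 K) ∉ w.asIdeal) :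
    w.valuation K ((evI x (Ideal.span {a}) : Kˣ) : K) = w.valuation K (algebraMap (𝓞 K) K a) := by
  classical
  have hspan : Ideal.span {a} ≠ 0 := by
    rw [Ne, Ideal.zero_eq_bot, Ideal.span_singleton_eq_bot]; exact ha
  have h1 : w.valuation K ((evI x (Ideal.span {a}) : Kˣ) : K)
      = ((normalizedFactors (Ideal.span {a})).map (fun P => w.valuation K (x P : K))).prod := by
    unfold evI
    rw [← Units.coeHom_apply, map_multiset_prod, map_multiset_prod, Multiset.map_map,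
      Multiset.map_map]
    rfl
  rw [h1, Multiset.prod_map_eq_pow_single w.asIdeal]
  · rw [(hx1 w hw).1, HeightOneSpectrum.valuation_of_algebraMap,
      HeightOneSpectrum.intValuation_eq_exp_neg_multiplicity w ha,
      multiplicity_eq_count_normalizedFactors w.irreducible hspan, normalize_eq, ← WithZero.exp_nsmul]
    simp
  · intro P hP hPm
    obtain ⟨hp1, hp2⟩ := isPrime_of_mem_normalizedFactors hPm
    by_cases hmP : (m : 𝓞 K) ∈ P
    · rw [hx2 P (fun h => h.2.2 hmP)]; simp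
    · have := (hx1 ⟨P, hp1, hp2⟩ hmP).2 w (by
        intro h
        apply hP
        rw [h]) hw
      exact this

/-- The ray character attached to a character of `Kˣ` trivial on the `m`-units. -/
theorem evI_eq {m : ℕ} {x : Ideal (𝓞 K) → Kˣ}
    (hx1 : ∀ v : HeightOneSpectrum (𝓞 K), (m : 𝓞 K) ∉ v.asIdeal →
      v.valuation K (x v.asIdeal : K) = WithZero.exp (-1 : ℤ) ∧
      ∀ w : HeightOneSpectrum (𝓞 K), w ≠ v → (m : 𝓞 K) ∉ w.asIdeal →
        w.valuation K (x v.asIdeal : K) = 1)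
    (hx2 : ∀ P : Ideal (𝓞 K), ¬ (P.IsPrime ∧ P ≠ ⊥ ∧ (m : 𝓞 K) ∉ P) → x P = 1)
    {A : Type*} [CommGroup A] (Θ : Kˣ →* A) (hΘ : ∀ y ∈ SU K m, Θ y = 1)
    {a : 𝓞 K} (ha : a ≠ 0) (u : Kˣ) (hu : (u : K) = algebraMap (𝓞 K) K a) :
    Θ u = evI (fun P => Θ (x P)) (Ideal.span {a}) := by
  rw [← map_evI]
  have h1 : u * (evI x (Ideal.span {a}))⁻¹ ∈ SU K m := by
    intro w hw
    rw [Units.val_mul, map_mul, Units.val_inv_eq_inv_val, map_inv₀, val_evI_x hx1 hx2 ha w hw, hu]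
    apply mul_inv_cancel₀
    rw [Ne, Valuation.zero_iff]
    simpa using ha
  have h2 := hΘ _ h1
  rw [map_mul, map_inv] at h2
  exact mul_inv_eq_one.mp h2

/-- integral representatives -/
theorem exists_unit_frac (y : Kˣ) : ∃ (a b : 𝓞 K) (ua ub : Kˣ), a ≠ 0 ∧ b ≠ 0 ∧
    (ua : K) = algebraMap (𝓞 K) K a ∧ (ub : K) = algebraMap (𝓞 K) K b ∧ y = ua / ub := by
  obtain ⟨a, b, hb, hab⟩ := IsFractionRing.div_surjective (A := 𝓞 K) (y : K)
  have hb0 : b ≠ 0 := nonZeroDivisors.ne_zero hb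
  have ha0 : a ≠ 0 := by
    rintro rfl
    rw [map_zero, zero_div] at hab
    exact y.ne_zero hab.symm
  have ha' : algebraMap (𝓞 K) K a ≠ 0 := by simpa using ha0
  have hb' : algebraMap (𝓞 K) K b ≠ 0 := by simpa using hb0
  refine ⟨a, b, Units.mk0 _ ha', Units.mk0 _ hb', ha0, hb0, rfl, rfl, ?_⟩
  ext
  rw [Units.val_div_eq_div_val]
  exact hab.symm

end main

end

end Vale.Agent.P022.CFT
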