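import Vale.Agent.P022.H380.FiA

/-! Package P12a7, part B: norms of generators, ramified primes. -/

namespace Vale.Agent.P022.CFT

open NumberField IsDedekindDomain UniqueFactorizationMonoid
open Vale.Agent.P024.M3 (h0 h1 e1 dd nn RR VS Unr)

noncomputable section

set_option linter.unusedSectionVars false

section gen

variable {L : Type} [Field L] [NumberField L]

theorem Gen_mono {m m' : ℕ} (h : m ∣ m') (hG : Gen L m) : Gen L m' := by
  have key : ∀ v : HeightOneSpectrum (𝓞 L), (m' : 𝓞 L) ∉ v.asIdeal → (m : 𝓞 L) ∉ v.asIdeal := by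
    intro v hv hm
    obtain ⟨c, rfl⟩ := h
    apply hv
    push_cast
    exact v.asIdeal.mul_mem_right _ hm
  intro v hv
  obtain ⟨x, h1, h2⟩ := hG v (key v hv)
  exact ⟨x, h1, fun w hw hmw => h2 w hw (key w hmw)⟩

theorem finite_PL' {m : ℕ} (hm : 0 < m) :
    {w : HeightOneSpectrum (𝓞 L) | (m : 𝓞 L) ∈ w.asIdeal}.Finite := by
  have h0 : Ideal.span {(m : 𝓞 L)} ≠ 0 := by
    rw [Ne, Ideal.zero_eq_bot, Ideal.span_singleton_eq_bot]
    exact_mod_cast hm.ne'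
  refine (Ideal.finite_factors h0).subset ?_
  intro w hw
  rw [Set.mem_ofPred_eq, Ideal.dvd_span_singleton]
  exact hw

/-- An integral generator of a prime outside `m`, up to primes dividing `m`. -/
theorem exists_int_gen {m : ℕ} (hm : 0 < m) (hG : Gen L m) (v : HeightOneSpectrum (𝓞 L))
    (hv : (m : 𝓞 L) ∉ v.asIdeal) : ∃ (b : 𝓞 L) (I : Ideal (𝓞 L)), b ≠ 0 ∧ I ≠ 0 ∧
      Ideal.span {b} = v.asIdeal * I ∧ ∀ Q ∈ normalizedFactors I, (m : 𝓞 L) ∈ Q := by
  classical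
  obtain ⟨β, h1, h2⟩ := hG v hv
  have hfin := finite_PL' (L := L) hm
  have hmL : (m : L) ≠ 0 := by exact_mod_cast hm.ne'
  have hex : ∀ w : HeightOneSpectrum (𝓞 L), (m : 𝓞 L) ∈ w.asIdeal → ∃ j : ℕ,
      w.valuation L (m : L) ^ j * w.valuation L (β : L) ≤ 1 := by
    intro w hw
    have hlt : w.valuation L (m : L) < 1 := by
      have : (m : L) = algebraMap (𝓞 L) L m := by simp
      rw [this, HeightOneSpectrum.valuation_lt_one_iff_mem]
      exact hw
    have hne : w.valuation L (m : L) ≠ 0 := by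
      rw [Ne, Valuation.zero_iff]; exact hmL
    have hgt : 1 < (w.valuation L (m : L))⁻¹ := (one_lt_inv₀ (zero_lt_iff.mpr hne)).mpr hlt
    obtain ⟨n, hn⟩ := MulArchimedean.arch (w.valuation L (β : L)) hgt
    refine ⟨n, ?_⟩
    calc w.valuation L (m : L) ^ n * w.valuation L (β : L)
        ≤ w.valuation L (m : L) ^ n * (w.valuation L (m : L))⁻¹ ^ n := by gcongr
      _ = 1 := by rw [← mul_pow, mul_inv_cancel₀ hne, one_pow]
  have hex' : ∀ w : HeightOneSpectrum (𝓞 L), ∃ j : ℕ, (m : 𝓞 L) ∈ w.asIdeal →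
      w.valuation L (m : L) ^ j * w.valuation L (β : L) ≤ 1 := by
    intro w
    by_cases hw : (m : 𝓞 L) ∈ w.asIdeal
    · obtain ⟨j, hj⟩ := hex w hw
      exact ⟨j, fun _ => hj⟩
    · exact ⟨0, fun h => absurd h hw⟩
  choose jj hjj using hex'
  set J : ℕ := hfin.toFinset.sup jj with hJ
  have hval : ∀ w : HeightOneSpectrum (𝓞 L), (m : 𝓞 L) ∉ w.asIdeal →
      w.valuation L ((m : L) ^ J * (β : L)) = w.valuation L (β : L) := by
    intro w hw
    rw [map_mul, map_pow]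
    have : w.valuation L (m : L) = 1 := by
      have h3 : (m : L) = algebraMap (𝓞 L) L m := by simp
      rw [h3]
      refine le_antisymm (w.valuation_le_one _) (not_lt.mp ?_)
      rw [HeightOneSpectrum.valuation_lt_one_iff_mem]
      exact hw
    rw [this, one_pow, one_mul]
  have hint : ∀ w : HeightOneSpectrum (𝓞 L), w.valuation L ((m : L) ^ J * (β : L)) ≤ 1 := by
    intro w
    by_cases hw : (m : 𝓞 L) ∈ w.asIdeal
    · have hle : jj w ≤ J := Finset.le_sup (f := jj) (hfin.mem_toFinset.mpr hw)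
      have hlt : w.valuation L (m : L) ≤ 1 := by
        have : (m : L) = algebraMap (𝓞 L) L m := by simp
        rw [this]
        exact w.valuation_le_one _
      rw [map_mul, map_pow]
      refine le_trans ?_ (hjj w hw)
      gcongr ?_ * _
      exact pow_le_pow_right_of_le_one' hlt hle
    · rw [hval w hw]
      by_cases hwv : w = v
      · rw [hwv, h1, ← WithZero.exp_zero, WithZero.exp_le_exp]
        norm_num
      · rw [h2 w hwv hw]
  obtain ⟨b, hb⟩ := HeightOneSpectrum.mem_integers_of_valuation_le_one L _ hint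
  have hb0 : b ≠ 0 := by
    rintro rfl
    rw [map_zero] at hb
    exact mul_ne_zero (pow_ne_zero _ hmL) β.ne_zero hb.symm
  have hvb : v.valuation L (algebraMap (𝓞 L) L b) = WithZero.exp (-1 : ℤ) := by
    rw [hb, hval v hv, h1]
  have hbP : b ∈ v.asIdeal := by
    rw [← HeightOneSpectrum.valuation_lt_one_iff_mem (K := L), hvb, ← WithZero.exp_zero,
      WithZero.exp_lt_exp]
    norm_num
  obtain ⟨I, hI⟩ : v.asIdeal ∣ Ideal.span {b} := Ideal.dvd_span_singleton.mpr hbP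
  have hspan : Ideal.span {b} ≠ 0 := by
    rw [Ne, Ideal.zero_eq_bot, Ideal.span_singleton_eq_bot]; exact hb0
  have hI0 : I ≠ 0 := by
    rintro rfl
    rw [mul_zero] at hI
    exact hspan hI
  refine ⟨b, I, hb0, hI0, hI, ?_⟩
  intro Q hQ
  by_contra hmQ
  obtain ⟨hQ1, hQ2⟩ := isPrime_of_mem_normalizedFactors hQ
  have hQI : Q ∣ I := dvd_of_mem_normalizedFactors hQ
  set w : HeightOneSpectrum (𝓞 L) := ⟨Q, hQ1, hQ2⟩ with hw
  by_cases hwv : w = v
  · have hQv : Q = v.asIdeal := by rw [← hwv]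
    have h5 : v.asIdeal ^ 2 ∣ Ideal.span {b} := by
      rw [hI, pow_two]
      exact mul_dvd_mul_left _ (hQv ▸ hQI)
    have h6 := (v.intValuation_le_pow_iff_dvd b 2).mpr h5
    rw [HeightOneSpectrum.valuation_of_algebraMap] at hvb
    rw [hvb, WithZero.exp_le_exp] at h6
    norm_num at h6
  · have h5 : w.valuation L (algebraMap (𝓞 L) L b) = 1 := by
      rw [hb, hval w hmQ, h2 w hwv hmQ]
    have h6 : b ∈ w.asIdeal := by
      have : Q ∣ Ideal.span {b} := hQI.trans (hI ▸ dvd_mul_left _ _)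
      exact Ideal.dvd_span_singleton.mp this
    rw [← HeightOneSpectrum.valuation_lt_one_iff_mem (K := L), h5] at h6
    exact lt_irrefl _ h6

end gen

section rel

variable {K L : Type} [Field K] [NumberField K] [Field L] [NumberField L] [Algebra K L]

theorem comap_ne_bot {Q : Ideal (𝓞 L)} (hQ0 : Q ≠ ⊥) :
    Q.comap (algebraMap (𝓞 K) (𝓞 L)) ≠ ⊥ := by
  intro h
  have h1 : ((Ideal.absNorm Q : ℕ) : 𝓞 K) ∈ Q.comap (algebraMap (𝓞 K) (𝓞 L)) := by
    rw [Ideal.mem_comap, map_natCast]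
    exact Ideal.absNorm_mem Q
  rw [h, Ideal.mem_bot, Nat.cast_eq_zero, Ideal.absNorm_eq_zero_iff] at h1
  exact hQ0 h1

theorem natCast_mem_comap {Q : Ideal (𝓞 L)} {m : ℕ} :
    (m : 𝓞 K) ∈ Q.comap (algebraMap (𝓞 K) (𝓞 L)) ↔ (m : 𝓞 L) ∈ Q := by
  rw [Ideal.mem_comap, map_natCast]

theorem exists_relNorm_prime {Q : Ideal (𝓞 L)} (hQ : Q.IsPrime) :
    ∃ s, Ideal.relNorm (𝓞 K) Q = (Q.comap (algebraMap (𝓞 K) (𝓞 L))) ^ s := by
  have : (Q.comap (algebraMap (𝓞 K) (𝓞 L))).IsPrime := Ideal.IsPrime.comap _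
  have : Q.LiesOver (Q.comap (algebraMap (𝓞 K) (𝓞 L))) := ⟨rfl⟩
  exact Ideal.exists_relNorm_eq_pow_of_isPrime Q (Q.comap (algebraMap (𝓞 K) (𝓞 L)))

theorem evI_relNorm_eq_one {A : Type*} [CommGroup A] {m : ℕ} {Y : Ideal (𝓞 K) → A}
    (hY : ∀ P : Ideal (𝓞 K), (m : 𝓞 K) ∈ P → Y P = 1) {I : Ideal (𝓞 L)} (hI : I ≠ 0)
    (h : ∀ Q ∈ normalizedFactors I, (m : 𝓞 L) ∈ Q) : evI Y (Ideal.relNorm (𝓞 K) I) = 1 := by
  have key : ∀ s : Multiset (Ideal (𝓞 L)), (∀ Q ∈ s, Q.IsPrime ∧ Q ≠ ⊥ ∧ (m : 𝓞 L) ∈ Q) →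
      s.prod ≠ 0 ∧ evI Y (Ideal.relNorm (𝓞 K) s.prod) = 1 := by
    intro s hs
    induction s using Multiset.induction_on with
    | empty =>
      rw [Multiset.prod_zero]
      exact ⟨one_ne_zero, by rw [map_one, evI_one]⟩
    | cons Q s ih =>
      obtain ⟨h1, h2⟩ := ih (fun Q' hQ' => hs Q' (Multiset.mem_cons_of_mem hQ'))
      obtain ⟨h3, h4, h5⟩ := hs Q (Multiset.mem_cons_self _ _)
      rw [Multiset.prod_cons]
      refine ⟨mul_ne_zero h4 h1, ?_⟩
      rw [map_mul, evI_mul, h2, mul_one]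
      · obtain ⟨t, ht⟩ := exists_relNorm_prime (K := K) h3
        rw [ht, evI_pow, evI_prime Y (Ideal.IsPrime.comap _) (comap_ne_bot h4),
          hY _ (natCast_mem_comap.mpr h5), one_pow]
      · rw [Ne, Ideal.zero_eq_bot, Ideal.relNorm_eq_bot_iff]; exact h4
      · rw [Ne, Ideal.zero_eq_bot, Ideal.relNorm_eq_bot_iff]; exact h1
  have h1 := (key (normalizedFactors I) (fun Q hQ =>
    ⟨(isPrime_of_mem_normalizedFactors hQ).1, (isPrime_of_mem_normalizedFactors hQ).2, h Q hQ⟩)).2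
  have h2 : (normalizedFactors I).prod = I :=
    associated_iff_eq.mp (prod_normalizedFactors hI)
  rwa [h2] at h1

/-- Away from `m`, the value of a ray character at a prime with residue degree `f` upstairs. -/
theorem pow_eq_one_of_norm [IsGalois K L] {A : Type*} [CommGroup A] {m : ℕ} (hm : 0 < m)
    (hG : Gen L m) {Y : Ideal (𝓞 K) → A}
    (hY : ∀ P : Ideal (𝓞 K), (m : 𝓞 K) ∈ P → Y P = 1) (Θ : Kˣ →* A)
    (hΘ : ∀ (a : 𝓞 K) (u : Kˣ), a ≠ 0 → (u : K) = algebraMap (𝓞 K) K a →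
      Θ u = evI Y (Ideal.span {a}))
    (hN : ∀ y ∈ NK K L, Θ y = 1) {P : Ideal (𝓞 L)} (hP : P.IsPrime) (hP0 : P ≠ ⊥)
    (hmP : (m : 𝓞 L) ∉ P) {f : ℕ}
    (hf : Ideal.absNorm P = Ideal.absNorm (P.comap (algebraMap (𝓞 K) (𝓞 L))) ^ f) :
    Y (P.comap (algebraMap (𝓞 K) (𝓞 L))) ^ f = 1 := by
  obtain ⟨b, I, hb0, hI0, hbI, hQ⟩ := exists_int_gen hm hG ⟨P, hP, hP0⟩ hmP
  have hbI' : Ideal.span {b} = P * I := hbI
  obtain ⟨s, hs⟩ := exists_relNorm_prime (K := K) hP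
  have hpr : (P.comap (algebraMap (𝓞 K) (𝓞 L))).IsPrime := Ideal.IsPrime.comap _
  have hsf : s = f := by
    have h1 := Ideal.absNorm_relNorm (𝓞 K) (𝓞 L) P
    rw [hs, map_pow, hf] at h1
    have h2 : Ideal.absNorm (P.comap (algebraMap (𝓞 K) (𝓞 L))) ≠ 0 := by
      rw [Ne, Ideal.absNorm_eq_zero_iff]; exact comap_ne_bot hP0
    have h3 : Ideal.absNorm (P.comap (algebraMap (𝓞 K) (𝓞 L))) ≠ 1 := by
      rw [Ne, Ideal.absNorm_eq_one_iff]; exact hpr.ne_top
    exact Nat.pow_right_injective (by omega) h1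
  have h1 : evI Y (Ideal.relNorm (𝓞 K) (Ideal.span {b})) =
      Y (P.comap (algebraMap (𝓞 K) (𝓞 L))) ^ f := by
    rw [hbI', map_mul, evI_mul, evI_relNorm_eq_one hY hI0 hQ, mul_one, hs, evI_pow,
      evI_prime Y hpr (comap_ne_bot hP0), hsf]
    · rw [Ne, Ideal.zero_eq_bot, Ideal.relNorm_eq_bot_iff]; exact hP0
    · rw [Ne, Ideal.zero_eq_bot, Ideal.relNorm_eq_bot_iff]; exact hI0
  rw [← h1, Ideal.relNorm_singleton]
  have hbL : algebraMap (𝓞 L) L b ≠ 0 := by simpa using hb0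
  have h2 : ((Units.map (Algebra.norm K : L →* K) (Units.mk0 _ hbL) : Kˣ) : K)
      = algebraMap (𝓞 K) K (Algebra.intNorm (𝓞 K) (𝓞 L) b) := by
    rw [Algebra.algebraMap_intNorm (L := L)]
    rfl
  have h3 : Algebra.intNorm (𝓞 K) (𝓞 L) b ≠ 0 := by
    rw [Algebra.intNorm_ne_zero]; exact hb0
  rw [← hΘ _ _ h3 h2]
  exact hN _ ⟨_, rfl⟩

/-- An integer contained in all ramified primes. -/
theorem exists_ram_int : ∃ N : ℕ, 0 < N ∧ ∀ 𝔭 : Ideal (𝓞 K), ¬ Unram K L 𝔭 → (N : 𝓞 K) ∈ 𝔭 := by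
  classical
  have : Module.Finite K L := inferInstance
  have h1 : ∀ σ : L ≃ₐ[K] L, ∃ x y : 𝓞 L, σ ≠ 1 → ((y : L) = σ x ∧ y ≠ x) := by
    intro σ
    by_cases hσ : σ = 1
    · exact ⟨0, 0, fun h => absurd hσ h⟩
    · have h2 : ∃ x : 𝓞 L, σ (x : L) ≠ x := by
        by_contra hcon
        push Not at hcon
        apply hσ
        ext z
        obtain ⟨a, b, hb, rfl⟩ := IsFractionRing.div_surjective (A := 𝓞 L) z
        rw [map_div₀]
        rw [hcon a, hcon b]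
        rfl
      obtain ⟨x, hx⟩ := h2
      have hint : IsIntegral ℤ (σ (x : L)) := by
        have := (RingOfIntegers.isIntegral_coe x).map (σ.toAlgHom.restrictScalars ℤ)
        exact this
      refine ⟨x, ⟨σ (x : L), hint⟩, fun _ => ⟨rfl, ?_⟩⟩
      intro h
      apply hx
      have := congrArg (fun z : 𝓞 L => (z : L)) h
      exact this
  choose x y hxy using h1
  set δ : 𝓞 L := ∏ σ ∈ Finset.univ.filter (fun σ : L ≃ₐ[K] L => σ ≠ 1), (y σ - x σ) with hδ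
  have hδ0 : δ ≠ 0 := by
    rw [hδ, Finset.prod_ne_zero_iff]
    intro σ hσ
    exact sub_ne_zero.mpr ((hxy σ (Finset.mem_filter.mp hσ).2).2)
  have hspan : Ideal.absNorm (Ideal.span {δ}) ≠ 0 := by
    rw [Ne, Ideal.absNorm_eq_zero_iff, Ideal.span_singleton_eq_bot]; exact hδ0
  refine ⟨Ideal.absNorm (Ideal.span {δ}), Nat.pos_of_ne_zero hspan, ?_⟩
  intro 𝔭 h𝔭
  unfold Unram at h𝔭
  push Not at h𝔭
  obtain ⟨P, hP, hP𝔭, σ, hσ, hσ1⟩ := h𝔭
  rw [← hP𝔭, natCast_mem_comap]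
  have h3 : δ ∈ P := by
    rw [hδ]
    have hmem : σ ∈ Finset.univ.filter (fun σ : L ≃ₐ[K] L => σ ≠ 1) := by simp [hσ1]
    rw [← Finset.mul_prod_erase _ _ hmem]
    exact P.mul_mem_right _ (hσ _ _ (hxy σ hσ1).1)
  have h4 : Ideal.span {δ} ≤ P := (Ideal.span_singleton_le_iff_mem P).mpr h3
  exact h4 (Ideal.absNorm_mem _)

end rel

end

end Vale.Agent.P022.CFT
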