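import Vale.Agent.P022.H380.RayFourier

/-! Norm lemmas and coprimality lemmas. -/

namespace Vale.Agent.P022.H380

open NumberField Finset nonZeroDivisors

set_option linter.unusedSectionVars false

variable {K : Type} [Field K] [NumberField K]

theorem absNorm_odd {I : Ideal (𝓞 K)} (hI : IsCoprime I (idl K 2)) : Odd (Ideal.absNorm I) := by
  have hI' : IsCoprime I (idl K ((2 : ℕ) : ℤ)) := hI
  have hI0 : I ≠ 0 := cop_ne_zero (M := 2) le_rfl hI'
  rw [← Nat.not_even_iff_odd]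
  intro he
  have h2 : 2 ∣ Nat.card (𝓞 K ⧸ I) := by
    rw [Ideal.absNorm_apply, Submodule.cardQuot_apply] at he
    exact even_iff_two_dvd.mp he
  have : Finite (𝓞 K ⧸ I) := Ideal.finiteQuotientOfFreeOfNeBot I hI0
  have := Fact.mk Nat.prime_two
  obtain ⟨x, hx⟩ := exists_prime_addOrderOf_dvd_card' 2 h2
  have hx0 : x ≠ 0 := by
    rintro rfl
    simp at hx
  apply hx0
  have h3 : (2 : ℕ) • x = 0 := by rw [← hx]; exact addOrderOf_nsmul_eq_zero x
  obtain ⟨a, ha, b, hb, hab⟩ := Ideal.isCoprime_iff_exists.mp hI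
  obtain ⟨c, hc⟩ := Ideal.mem_span_singleton.mp hb
  have h4 : (Ideal.Quotient.mk I b) = 1 := by
    have : Ideal.Quotient.mk I (a + b) = 1 := by rw [hab, map_one]
    rw [map_add, Ideal.Quotient.eq_zero_iff_mem.mpr ha, zero_add] at this
    exact this
  calc x = Ideal.Quotient.mk I b * x := by rw [h4, one_mul]
    _ = Ideal.Quotient.mk I c * ((2 : ℕ) • x) := by
        rw [hc]
        push_cast
        rw [nsmul_eq_mul]
        push_cast
        rw [map_mul, map_ofNat]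
        ring
    _ = 0 := by rw [h3, mul_zero]

theorem norm_sub_one_dvd {M : ℕ} {α : 𝓞 K} (h : α - 1 ∈ idl K M) :
    (M : ℤ) ∣ Algebra.norm ℤ α - 1 := by
  classical
  obtain ⟨c, hc⟩ := Ideal.mem_span_singleton.mp h
  have hα : α = 1 + algebraMap ℤ (𝓞 K) M * c := by
    have : algebraMap ℤ (𝓞 K) M = ((M : ℤ) : 𝓞 K) := by simp
    rw [this, ← hc]; ring
  rw [← ZMod.intCast_zmod_eq_zero_iff_dvd]
  push_cast
  rw [sub_eq_zero]
  rw [Algebra.norm_eq_matrix_det (RingOfIntegers.basis K), hα]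
  have h1 : Algebra.leftMulMatrix (RingOfIntegers.basis K) (1 + algebraMap ℤ (𝓞 K) M * c)
      = 1 + (M : ℤ) • Algebra.leftMulMatrix (RingOfIntegers.basis K) c := by
    rw [map_add, map_one, ← Algebra.smul_def, map_smul]
  rw [h1]
  have h2 : (((1 + (M : ℤ) • Algebra.leftMulMatrix (RingOfIntegers.basis K) c).det : ℤ) : ZMod M)
      = (Int.castRingHom (ZMod M)) ((1 + (M : ℤ) • Algebra.leftMulMatrix (RingOfIntegers.basis K) c).det) := rfl
  rw [h2, RingHom.map_det]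
  have h3 : (Int.castRingHom (ZMod M)).mapMatrix
      (1 + (M : ℤ) • Algebra.leftMulMatrix (RingOfIntegers.basis K) c) = 1 := by
    rw [map_add, map_one]
    have h4 : (Int.castRingHom (ZMod M)).mapMatrix
        ((M : ℤ) • Algebra.leftMulMatrix (RingOfIntegers.basis K) c) = 0 := by
      ext i j
      rw [RingHom.mapMatrix_apply, Matrix.map_apply, Matrix.smul_apply, smul_eq_mul, map_mul]
      simp
    rw [h4, add_zero]
  rw [h3, Matrix.det_one]

theorem absNorm_idl (hK : Module.finrank ℚ K = 2) (d : ℕ) : Ideal.absNorm (idl K d) = d ^ 2 := by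
  rw [Ideal.absNorm_span_singleton]
  have : (((d : ℤ)) : 𝓞 K) = algebraMap ℤ (𝓞 K) d := by simp
  rw [this, Algebra.norm_algebraMap, RingOfIntegers.rank, hK]
  simp [Int.natAbs_pow]

theorem idl_mul (a b : ℤ) : idl K (a * b) = idl K a * idl K b := by
  rw [Ideal.span_singleton_mul_span_singleton, ← Int.cast_mul]

theorem idl_one : idl K 1 = 1 := by
  simp [idl]

theorem idl_mono {a b : ℤ} (h : a ∣ b) : idl K b ≤ idl K a := by
  obtain ⟨c, rfl⟩ := h
  rw [Ideal.span_singleton_le_span_singleton]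
  exact ⟨(c : 𝓞 K), by push_cast; rfl⟩

theorem cop_mul_iff {I : Ideal (𝓞 K)} {a b : ℤ} :
    IsCoprime I (idl K (a * b)) ↔ IsCoprime I (idl K a) ∧ IsCoprime I (idl K b) := by
  rw [idl_mul, IsCoprime.mul_right_iff]

theorem cop_two_pow_iff {I : Ideal (𝓞 K)} {s : ℕ} (hs : 1 ≤ s) (N0 : ℕ) :
    IsCoprime I (idl K ((2 ^ s * N0 : ℕ) : ℤ)) ↔ IsCoprime I (idl K (2 * N0)) := by
  push_cast
  rw [cop_mul_iff, cop_mul_iff]
  have : IsCoprime I (idl K ((2 : ℤ) ^ s)) ↔ IsCoprime I (idl K 2) := by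
    have h1 : idl K ((2 : ℤ) ^ s) = idl K 2 ^ s := by
      rw [Ideal.span_singleton_pow, ← Int.cast_pow]
    rw [h1, IsCoprime.pow_right_iff (by omega)]
  rw [this]

theorem idl_cop_of_coprime {d : ℕ} {M : ℕ} (h : Nat.Coprime d M) : IsCoprime (idl K d) (idl K M) := by
  rw [Ideal.isCoprime_span_singleton_iff]
  have := (Nat.isCoprime_iff_coprime.mpr h).map (Int.castRingHom (𝓞 K))
  simpa using this

/-- Some power of an ideal prime to `M` is generated by an element congruent to one. -/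
theorem exists_pow_span {M : ℕ} (hM : 2 ≤ M) {I : Ideal (𝓞 K)} (hI : IsCoprime I (idl K M)) :
    ∃ k : ℕ, 0 < k ∧ ∃ α : 𝓞 K, α ≠ 0 ∧ α - 1 ∈ idl K M ∧ I ^ k = Ideal.span {α} := by
  have hI0 : I ≠ 0 := cop_ne_zero hM hI
  obtain ⟨γ, hγ⟩ : ∃ γ : 𝓞 K, I ^ (Fintype.card (ClassGroup (𝓞 K))) = Ideal.span {γ} := by
    apply exists_span_of_mk0_eq_one (pow_ne_zero _ hI0)
    have h1 : (⟨I ^ (Fintype.card (ClassGroup (𝓞 K))),
        mem_nonZeroDivisors_of_ne_zero (pow_ne_zero _ hI0)⟩ : (Ideal (𝓞 K))⁰)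
        = (⟨I, mem_nonZeroDivisors_of_ne_zero hI0⟩ : (Ideal (𝓞 K))⁰) ^ (Fintype.card (ClassGroup (𝓞 K))) := by
      ext; simp
    rw [h1, map_pow, pow_card_eq_one]
  have hcop : IsCoprime (Ideal.span {γ}) (idl K M) := hγ ▸ hI.pow_left
  obtain ⟨n, hn, hn1⟩ := exists_pow_sub_one_mem hM hcop
  refine ⟨Fintype.card (ClassGroup (𝓞 K)) * n, Nat.mul_pos Fintype.card_pos hn, γ ^ n,
    ne_zero_of_sub_one_mem hM hn1, hn1, ?_⟩
  rw [pow_mul, hγ, Ideal.span_singleton_pow]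

theorem ray_v_eq_one {v : AbsoluteValue ℂ ℝ} {M : ℕ} (hM : 2 ≤ M) {w : K → ℂ} (hw : IsSign w)
    {ξ : Ideal (𝓞 K) →*₀ ℂ} (hξ : IsRay ξ M w) {I : Ideal (𝓞 K)} (hI : IsCoprime I (idl K M)) :
    v (ξ I) = 1 := by
  obtain ⟨k, hk, α, h0, h1, h2⟩ := exists_pow_span hM hI
  have h3 : (ξ I) ^ k = w α := by rw [← map_pow, h2, hξ.princ α h0 h1]
  have h4 : v (ξ I) ^ k = 1 := by
    rw [← map_pow, h3]
    rcases sign_eq hw (α : K) with h | h <;> simp [h]
  exact (pow_eq_one_iff_of_nonneg (AbsoluteValue.nonneg _ _) hk.ne').mp h4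

/-- a ray class character depends on a natural number prime to the modulus only through its
class modulo the modulus -/
theorem ray_idl_congr {M : ℕ} (hM : 2 ≤ M) {w : K → ℂ} (hw : IsSign w)
    {ξ : Ideal (𝓞 K) →*₀ ℂ} (hξ : IsRay ξ M w) {d d' : ℕ} (hd0 : 0 < d) (hd0' : 0 < d')
    (hd : Nat.Coprime d M) (h : d ≡ d' [MOD M]) : ξ (idl K d) = ξ (idl K d') := by
  obtain ⟨n, hn, hn1⟩ : ∃ e : ℕ, 0 < e ∧ d * e ≡ 1 [MOD M] := by
    refine ⟨d ^ (Nat.totient M - 1 + Nat.totient M), by positivity, ?_⟩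
    have h1 : d * d ^ (Nat.totient M - 1 + Nat.totient M) = d ^ Nat.totient M * d ^ Nat.totient M := by
      have : 0 < Nat.totient M := Nat.totient_pos.mpr (by omega)
      rw [← pow_succ', ← pow_add]
      congr 1
      omega
    rw [h1]
    exact (Nat.ModEq.pow_totient hd).mul (Nat.ModEq.pow_totient hd)
  have key : ∀ x : ℕ, 0 < x → x ≡ 1 [MOD M] → ξ (idl K x) = 1 := by
    intro x hx0 hx
    have h2 : ((x : ℤ) : 𝓞 K) - 1 ∈ idl K M := by
      have h3 : (M : ℤ) ∣ (x : ℤ) - 1 := by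
        have := (Int.natCast_modEq_iff.mpr hx).symm.dvd
        simpa using this
      have h4 := idl_mono (K := K) h3
      apply h4
      rw [Ideal.mem_span_singleton]
      push_cast
      exact dvd_refl _
    have h3 : ((x : ℤ) : 𝓞 K) ≠ 0 := ne_zero_of_sub_one_mem hM h2
    rw [hξ.princ _ h3 h2]
    have : ((((x : ℤ) : 𝓞 K)) : K) = (x : K) := by simp
    rw [this]
    exact sign_nat hw hx0
  have h5 : ξ (idl K d) * ξ (idl K n) = 1 := by
    rw [← map_mul, ← idl_mul]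
    exact_mod_cast key (d * n) (by positivity) hn1
  have h6 : ξ (idl K d') * ξ (idl K n) = 1 := by
    rw [← map_mul, ← idl_mul]
    exact_mod_cast key (d' * n) (by positivity) ((h.symm.mul_right n).trans hn1)
  have h7 : ξ (idl K n) ≠ 0 := right_ne_zero_of_mul_eq_one h5
  exact mul_right_cancel₀ h7 (h5.trans h6.symm)

end Vale.Agent.P022.H380
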