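import Vale.Agent.P022.H380.Twist

/-! Package P6: approximation of a 2-adic Hecke character of a quadratic field. -/

namespace Vale.Agent.P022.H380

open NumberField Finset nonZeroDivisors

theorem P6 : P6_statement := by
  intro v hv K _ _ hK w hw N0 N hN hN0 hdisc Ψ hΨ m
  classical
  have hNpos : 0 < N := hN.pos
  have hN0pos : 0 < N0 := Nat.pos_of_dvd_of_pos hN0 hNpos
  obtain ⟨s, hs⟩ := hΨ.cont (m + 1)
  -- discriminant
  have hD0 : (discr K).natAbs ≠ 0 := Int.natAbs_ne_zero.mpr (discr_ne_zero K)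
  obtain ⟨a, D', hD', hDeq⟩ := Nat.exists_eq_two_pow_mul_odd hD0
  have hD'N : D' ∣ N := by
    have h1 : (D' : ℤ) ∣ discr K := by
      rw [← Int.dvd_natAbs, hDeq]
      push_cast
      exact dvd_mul_left _ _
    have h2 := hdisc (D' : ℤ) (by exact_mod_cast hD') h1
    exact_mod_cast h2
  set S0 : ℕ := s + 1 with hS0
  set S : ℕ := S0 + a with hS
  have hDdvd : 4 * (discr K).natAbs ∣ 2 ^ (S + 2) * N := by
    rw [hDeq]
    have : 4 * (2 ^ a * D') = 2 ^ (a + 2) * D' := by ring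
    rw [this]
    exact mul_dvd_mul (pow_dvd_pow 2 (by omega)) hD'N
  have hM : 2 ≤ 2 ^ S0 * N0 := by
    have : 2 ^ 1 ≤ 2 ^ S0 := Nat.pow_le_pow_right (by norm_num) (by omega)
    nlinarith
  have hcop : ∀ I : Ideal (𝓞 K), IsCoprime I (idl K ((2 ^ S0 * N0 : ℕ) : ℤ)) ↔
      IsCoprime I (idl K (2 * N0)) := fun I => cop_two_pow_iff (by omega) N0
  obtain ⟨ι, hι, c, ξ, hξ, happ⟩ := ray_fourier hv hM hw Ψ
    (fun I hI => hΨ.unit I ((hcop I).mp hI)) (ε := (1 / 2) ^ (m + 1)) (by positivity)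
    (fun α h0 h1 => hs α h0 (by
      refine idl_mono ?_ h1
      push_cast
      exact mul_dvd_mul (pow_dvd_pow 2 (by omega)) dvd_rfl))
  have htw := fun i => exists_twist hK hN hN0 (S0 := S0) (S := S) (by omega) (by omega) hDdvd hw (hξ i)
  choose ep nu hray hneb hper hxi using htw
  have hpol := fun i => exists_poly_approx hv (S + 3) (nu i) (hper i)
    ((1 / 2) ^ m / (v (c i) + 1)) (div_pos (by positivity)
      (add_pos_of_nonneg_of_pos (AbsoluteValue.nonneg _ _) one_pos))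
  choose P hP using hpol
  -- total index set
  let J : Type := Σ i : ι, Fin ((P i).natDegree + 1)
  have e : J ≃ Fin (Fintype.card J) := Fintype.equivFin J
  refine ⟨Fintype.card J, fun x => c (e.symm x).1 * (P (e.symm x).1).coeff (e.symm x).2,
    fun x => ep (e.symm x).1, fun x => (e.symm x).2, S + 3, by omega, fun x => hray _,
    fun x => hneb _, ?_⟩
  intro I hI
  have h1 : ∑ x : Fin (Fintype.card J), c (e.symm x).1 * (P (e.symm x).1).coeff (e.symm x).2 *
      ep (e.symm x).1 I * (Ideal.absNorm I : ℂ) ^ ((e.symm x).2 : ℕ)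
      = ∑ i, c i * (ep i I * (P i).eval (Ideal.absNorm I : ℂ)) := by
    rw [Equiv.sum_comp e.symm (fun y : J => c y.1 * (P y.1).coeff y.2 *
      ep y.1 I * (Ideal.absNorm I : ℂ) ^ (y.2 : ℕ)), Fintype.sum_sigma]
    refine Finset.sum_congr rfl (fun i _ => ?_)
    rw [Polynomial.eval_eq_sum_range, Finset.mul_sum, Finset.mul_sum,
      ← Fin.sum_univ_eq_sum_range (fun j => c i * (ep i I * ((P i).coeff j *
        (Ideal.absNorm I : ℂ) ^ j)))]
    refine Finset.sum_congr rfl (fun j _ => ?_)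
    ring
  rw [h1]
  have h2 : Ψ I - ∑ i, c i * (ep i I * (P i).eval (Ideal.absNorm I : ℂ))
      = (Ψ I - ∑ i, c i * ξ i I) +
        ∑ i, c i * (ep i I * (nu i (Ideal.absNorm I) - (P i).eval (Ideal.absNorm I : ℂ))) := by
    have h3 : ∀ i, c i * (ep i I * (nu i (Ideal.absNorm I) - (P i).eval (Ideal.absNorm I : ℂ)))
        = c i * ξ i I - c i * (ep i I * (P i).eval (Ideal.absNorm I : ℂ)) := by
      intro i
      rw [hxi i I hI]
      ring
    rw [Finset.sum_congr rfl (fun i _ => h3 i), Finset.sum_sub_distrib]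
    ring
  rw [h2]
  refine v_add_le hv.nonarch ?_ ?_
  · refine (happ I ((hcop I).mpr hI)).trans (le_of_eq ?_)
    rw [pow_succ]; ring
  · refine v_sum_le hv.nonarch (by positivity) _ _ (fun i _ => ?_)
    have hM' : 2 ≤ 2 ^ (S + 3) * N0 := by
      have : 2 ^ 1 ≤ 2 ^ (S + 3) := Nat.pow_le_pow_right (by norm_num) (by omega)
      nlinarith
    have h4 : v (ep i I) = 1 := ray_v_eq_one hM' hw (hray i) ((cop_two_pow_iff (by omega) N0).mpr hI)
    rw [map_mul, map_mul, h4, one_mul, AbsoluteValue.map_sub]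
    have h5 := hP i (Ideal.absNorm I)
    have h6 : 0 ≤ v (c i) := AbsoluteValue.nonneg _ _
    have h7 : (0 : ℝ) < (1 / 2) ^ m := by positivity
    calc v (c i) * v ((P i).eval ((Ideal.absNorm I : ℕ) : ℂ) - nu i (Ideal.absNorm I))
        ≤ v (c i) * ((1 / 2) ^ m / (v (c i) + 1)) := mul_le_mul_of_nonneg_left h5 h6
      _ ≤ (1 / 2) ^ m := by
        rw [mul_div_assoc', div_le_iff₀ (by linarith)]
        nlinarith

end Vale.Agent.P022.H380
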