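import Vale.Agent.P022.Iface

/-! Ray class groups (with one sign condition) of a number field, finiteness, Fourier expansion. -/

namespace Vale.Agent.P022.H380

open NumberField Finset

set_option linter.unusedSectionVars false

/-- Fourier expansion on a finite commutative group. -/
theorem exists_fourier (Q : Type) [CommGroup Q] [Finite Q] :
    ∃ (ι : Type) (_ : Fintype ι) (χ : ι → (Q →* ℂ)), ∀ F : Q → ℂ, ∃ c : ι → ℂ,
      ∀ q, F q = ∑ i, c i * χ i q := by
  classical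
  have := Fintype.ofFinite Q
  refine ⟨AddChar (Additive Q) ℂ, inferInstance, fun ψ =>
    { toFun := fun q => ψ (Additive.ofMul q)
      map_one' := by simp
      map_mul' := fun a b => by rw [ofMul_mul, AddChar.map_add_eq_mul] }, fun F => ?_⟩
  refine ⟨fun ψ => (1 / (Fintype.card Q : ℂ)) * ∑ g : Q, F g * ψ (-(Additive.ofMul g)), fun q => ?_⟩
  have hcard : (Fintype.card Q : ℂ) ≠ 0 := by
    exact_mod_cast Fintype.card_ne_zero
  simp only [MonoidHom.coe_mk, OneHom.coe_mk]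
  have h2 : ∀ ψ : AddChar (Additive Q) ℂ,
      (1 / (Fintype.card Q : ℂ)) * (∑ g : Q, F g * ψ (-(Additive.ofMul g))) * ψ (Additive.ofMul q)
      = ∑ g : Q, (1 / (Fintype.card Q : ℂ)) * F g * ψ (Additive.ofMul q - Additive.ofMul g) := by
    intro ψ
    rw [Finset.mul_sum, Finset.sum_mul]
    refine Finset.sum_congr rfl (fun g _ => ?_)
    rw [sub_eq_add_neg, AddChar.map_add_eq_mul]
    ring
  rw [Finset.sum_congr rfl (fun ψ _ => h2 ψ), Finset.sum_comm]
  have h3 : ∀ g : Q, ∑ ψ : AddChar (Additive Q) ℂ,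
      (1 / (Fintype.card Q : ℂ)) * F g * ψ (Additive.ofMul q - Additive.ofMul g)
      = if g = q then F g else 0 := by
    intro g
    rw [← Finset.mul_sum, AddChar.sum_apply_eq_ite]
    have h4 : Fintype.card (Additive Q) = Fintype.card Q := Fintype.card_congr Additive.toMul
    rw [h4]
    by_cases hg : g = q
    · rw [if_pos hg, if_pos (by rw [hg]; simp)]
      field_simp
    · rw [if_neg hg, if_neg (by
        rw [sub_eq_zero]
        intro h
        exact hg (Additive.ofMul.injective h).symm), mul_zero]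
  rw [Finset.sum_congr rfl (fun g _ => h3 g)]
  simp

variable {K : Type} [Field K] [NumberField K]

theorem sign_eq {w : K → ℂ} (h : IsSign w) (x : K) : w x = 1 ∨ w x = -1 := by
  rcases h with ⟨_, h⟩ | ⟨σ, h⟩
  · exact Or.inl (h x)
  · rw [h x]
    by_cases hx : 0 < σ x <;> simp [hx]

theorem sign_mul {w : K → ℂ} (h : IsSign w) {x y : K} (hx : x ≠ 0) (hy : y ≠ 0) :
    w (x * y) = w x * w y := by
  rcases h with ⟨_, h⟩ | ⟨σ, h⟩
  · simp [h]
  · rw [h, h, h, map_mul]
    have hx' : σ x ≠ 0 := by simpa using hx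
    have hy' : σ y ≠ 0 := by simpa using hy
    rcases lt_or_gt_of_ne hx' with h1 | h1 <;> rcases lt_or_gt_of_ne hy' with h2 | h2
    · rw [if_pos (mul_pos_of_neg_of_neg h1 h2), if_neg (not_lt.mpr h1.le), if_neg (not_lt.mpr h2.le)]
      norm_num
    · rw [if_neg (not_lt.mpr (mul_neg_of_neg_of_pos h1 h2).le), if_neg (not_lt.mpr h1.le), if_pos h2]
      norm_num
    · rw [if_neg (not_lt.mpr (mul_neg_of_pos_of_neg h1 h2).le), if_neg (not_lt.mpr h2.le), if_pos h1]
      norm_num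
    · rw [if_pos (mul_pos h1 h2), if_pos h1, if_pos h2]
      norm_num

theorem sign_nat {w : K → ℂ} (h : IsSign w) {n : ℕ} (hn : 0 < n) : w (n : K) = 1 := by
  rcases h with ⟨_, h⟩ | ⟨σ, h⟩
  · exact h _
  · rw [h, map_natCast, if_pos (by exact_mod_cast hn)]

theorem sign_one {w : K → ℂ} (h : IsSign w) : w 1 = 1 := by
  simpa using sign_nat h one_pos

theorem sign_ne {w : K → ℂ} (h : IsSign w) (x : K) : w x ≠ 0 := by
  rcases sign_eq h x with h | h <;> simp [h]

theorem sign_mul_self {w : K → ℂ} (h : IsSign w) (x : K) : w x * w x = 1 := by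
  rcases sign_eq h x with h | h <;> simp [h]

/-- Ideals prime to `M`. -/
def cop (K : Type) [Field K] [NumberField K] (M : ℕ) : Submonoid (Ideal (𝓞 K)) where
  carrier := {I | IsCoprime I (idl K M)}
  one_mem' := isCoprime_one_left
  mul_mem' := fun ha hb => IsCoprime.mul_left ha hb

theorem mem_cop {M : ℕ} {I : Ideal (𝓞 K)} : I ∈ cop K M ↔ IsCoprime I (idl K M) := Iff.rfl

/-- The equivalence relation defining the ray class group. -/
def RayRel (M : ℕ) (w : K → ℂ) (I J : Ideal (𝓞 K)) : Prop :=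
  ∃ α β : 𝓞 K, α ≠ 0 ∧ β ≠ 0 ∧ α - 1 ∈ idl K M ∧ β - 1 ∈ idl K M ∧ w (α : K) = w (β : K) ∧
    Ideal.span {α} * I = Ideal.span {β} * J

theorem mul_sub_one_mem {I : Ideal (𝓞 K)} {α β : 𝓞 K} (hα : α - 1 ∈ I) (hβ : β - 1 ∈ I) :
    α * β - 1 ∈ I := by
  have : α * β - 1 = (α - 1) * β + (β - 1) := by ring
  rw [this]
  exact I.add_mem (I.mul_mem_right _ hα) hβ

theorem coe_ne_zero {α : 𝓞 K} (h : α ≠ 0) : (α : K) ≠ 0 := by
  simpa using h

/-- The congruence relation defining the ray class group. -/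
def rayCon (M : ℕ) (w : K → ℂ) (hw : IsSign w) : Con (cop K M) where
  r I J := RayRel M w (I : Ideal (𝓞 K)) (J : Ideal (𝓞 K))
  iseqv :=
    { refl := fun I => ⟨1, 1, one_ne_zero, one_ne_zero, by simp, by simp, rfl, rfl⟩
      symm := fun {I J} ⟨α, β, h1, h2, h3, h4, h5, h6⟩ => ⟨β, α, h2, h1, h4, h3, h5.symm, h6.symm⟩
      trans := fun {I J L} ⟨α, β, h1, h2, h3, h4, h5, h6⟩ ⟨α', β', h1', h2', h3', h4', h5', h6'⟩ => by
        refine ⟨α * α', β * β', mul_ne_zero h1 h1', mul_ne_zero h2 h2', mul_sub_one_mem h3 h3',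
          mul_sub_one_mem h4 h4', ?_, ?_⟩
        · push_cast
          rw [sign_mul hw (coe_ne_zero h1) (coe_ne_zero h1'),
            sign_mul hw (coe_ne_zero h2) (coe_ne_zero h2'), h5, h5']
        · rw [← Ideal.span_singleton_mul_span_singleton, ← Ideal.span_singleton_mul_span_singleton]
          calc Ideal.span {α} * Ideal.span {α'} * (I : Ideal (𝓞 K))
              = Ideal.span {α'} * (Ideal.span {α} * (I : Ideal (𝓞 K))) := by ring
            _ = Ideal.span {β} * (Ideal.span {α'} * (J : Ideal (𝓞 K))) := by rw [h6]; ring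
            _ = _ := by rw [h6']; ring }
  mul' := by
    rintro I J I' J' ⟨α, β, h1, h2, h3, h4, h5, h6⟩ ⟨α', β', h1', h2', h3', h4', h5', h6'⟩
    refine ⟨α * α', β * β', mul_ne_zero h1 h1', mul_ne_zero h2 h2', mul_sub_one_mem h3 h3',
          mul_sub_one_mem h4 h4', ?_, ?_⟩
    · push_cast
      rw [sign_mul hw (coe_ne_zero h1) (coe_ne_zero h1'),
        sign_mul hw (coe_ne_zero h2) (coe_ne_zero h2'), h5, h5']
    · rw [← Ideal.span_singleton_mul_span_singleton, ← Ideal.span_singleton_mul_span_singleton]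
      push_cast
      calc Ideal.span {α} * Ideal.span {α'} * ((I : Ideal (𝓞 K)) * (I' : Ideal (𝓞 K)))
          = (Ideal.span {α} * (I : Ideal (𝓞 K))) * (Ideal.span {α'} * (I' : Ideal (𝓞 K))) := by ring
        _ = _ := by rw [h6, h6']; ring

theorem natCast_ne_top {M : ℕ} (hM : 2 ≤ M) : idl K M ≠ ⊤ := by
  intro h
  rw [Ideal.span_singleton_eq_top] at h
  have h1 : IsUnit ((M : ℤ) : 𝓞 K) := by simpa using h
  have h2 := h1.map (RingOfIntegers.norm ℚ)
  have h3 : IsUnit (Algebra.norm ℤ ((M : ℤ) : 𝓞 K)) := h1.map (Algebra.norm ℤ)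
  have h4 : Algebra.norm ℤ (((M : ℤ) : 𝓞 K)) = (M : ℤ) ^ (Module.finrank ℤ (𝓞 K)) := by
    have := Algebra.norm_algebraMap_of_basis (RingOfIntegers.basis K) (M : ℤ)
    rw [show (((M : ℤ) : 𝓞 K)) = algebraMap ℤ (𝓞 K) (M : ℤ) by simp, this,
      Module.finrank_eq_card_basis (RingOfIntegers.basis K)]
  rw [h4] at h3
  have h5 : Module.finrank ℤ (𝓞 K) ≠ 0 := by
    rw [RingOfIntegers.rank]
    exact Module.finrank_pos.ne'
  rw [isUnit_pow_iff h5, Int.isUnit_iff] at h3
  omega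

theorem ne_zero_of_sub_one_mem {M : ℕ} (hM : 2 ≤ M) {α : 𝓞 K} (h : α - 1 ∈ idl K M) : α ≠ 0 := by
  rintro rfl
  apply natCast_ne_top (K := K) hM
  rw [Ideal.eq_top_iff_one]
  have := (idl K M).neg_mem h
  simpa using this

theorem idl_ne_bot {M : ℕ} (hM : 0 < M) : idl K M ≠ ⊥ := by
  intro h
  rw [Ideal.span_singleton_eq_bot] at h
  have : (M : 𝓞 K) = 0 := by simpa using h
  rw [Nat.cast_eq_zero] at this
  omega

theorem cop_ne_zero {M : ℕ} (hM : 2 ≤ M) {I : Ideal (𝓞 K)} (h : IsCoprime I (idl K M)) : I ≠ 0 := by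
  rintro rfl
  rw [isCoprime_zero_left] at h
  exact natCast_ne_top (K := K) hM (Ideal.isUnit_iff.mp h)

theorem span_cop_iff {M : ℕ} {α : 𝓞 K} : IsCoprime (Ideal.span {α}) (idl K M) ↔
    ∃ β : 𝓞 K, α * β - 1 ∈ idl K M := by
  rw [Ideal.isCoprime_span_singleton_iff]
  constructor
  · rintro ⟨a, b, h⟩
    refine ⟨a, ?_⟩
    have : α * a - 1 = - (b * ((M : ℤ) : 𝓞 K)) := by rw [← h]; ring
    rw [this]
    exact (idl K M).neg_mem ((idl K M).mul_mem_left _ (Ideal.mem_span_singleton_self _))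
  · rintro ⟨β, h⟩
    obtain ⟨c, hc⟩ := Ideal.mem_span_singleton.mp h
    refine ⟨β, -c, ?_⟩
    linear_combination hc

end Vale.Agent.P022.H380
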