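import Vale.Agent.P022.H380.Ray

/-! Finiteness of ray class groups. -/

namespace Vale.Agent.P022.H380

open NumberField Finset nonZeroDivisors

set_option linter.unusedSectionVars false

variable {K : Type} [Field K] [NumberField K]

theorem exists_span_of_mk0_eq_one {I : Ideal (𝓞 K)} (hI : I ≠ 0)
    (h : ClassGroup.mk0 ⟨I, mem_nonZeroDivisors_of_ne_zero hI⟩ = 1) : ∃ γ : 𝓞 K, I = Ideal.span {γ} := by
  rw [ClassGroup.mk0_eq_one_iff] at h
  obtain ⟨γ, hγ⟩ := h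
  exact ⟨γ, hγ⟩

/-- every ideal class has a complement prime to `M` which makes all ideals prime to `M` in the
class principal -/
theorem exists_compl (M : ℕ) (c : ClassGroup (𝓞 K)) :
    ∃ I' : Ideal (𝓞 K), IsCoprime I' (idl K M) ∧ ∀ J : Ideal (𝓞 K), IsCoprime J (idl K M) →
      ∀ hJ : J ≠ 0, ClassGroup.mk0 ⟨J, mem_nonZeroDivisors_of_ne_zero hJ⟩ = c →
      ∃ γ : 𝓞 K, J * I' = Ideal.span {γ} := by
  by_cases h : ∃ J : Ideal (𝓞 K), ∃ hJ : J ≠ 0, IsCoprime J (idl K M) ∧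
      ClassGroup.mk0 ⟨J, mem_nonZeroDivisors_of_ne_zero hJ⟩ = c
  · obtain ⟨J0, hJ0, hcop, hc⟩ := h
    refine ⟨J0 ^ (Fintype.card (ClassGroup (𝓞 K)) - 1), hcop.pow_left, fun J hJ hJn hJc => ?_⟩
    apply exists_span_of_mk0_eq_one (mul_ne_zero hJn (pow_ne_zero _ hJ0))
    have h1 : (⟨J * J0 ^ (Fintype.card (ClassGroup (𝓞 K)) - 1),
        mem_nonZeroDivisors_of_ne_zero (mul_ne_zero hJn (pow_ne_zero _ hJ0))⟩ : (Ideal (𝓞 K))⁰)
        = ⟨J, mem_nonZeroDivisors_of_ne_zero hJn⟩ *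
          (⟨J0, mem_nonZeroDivisors_of_ne_zero hJ0⟩ : (Ideal (𝓞 K))⁰) ^ (Fintype.card (ClassGroup (𝓞 K)) - 1) := by
      ext; simp
    rw [h1, map_mul, map_pow, hJc, hc, ← pow_succ', Nat.sub_add_cancel Fintype.card_pos, pow_card_eq_one]
  · refine ⟨1, isCoprime_one_left, fun J hJ hJn hJc => absurd ⟨J, hJn, hJ, hJc⟩ h⟩

theorem rayRel_of_mul {M : ℕ} (hM : 2 ≤ M) {w : K → ℂ} (hw : IsSign w) {J J' I' : Ideal (𝓞 K)}
    (hJ : IsCoprime J (idl K M)) (hI' : IsCoprime I' (idl K M))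
    (hJ' : IsCoprime J' (idl K M)) {γ γ' : 𝓞 K} (h : J * I' = Ideal.span {γ}) (h' : J' * I' = Ideal.span {γ'})
    (hγ : γ - γ' ∈ idl K M) (hsgn : w γ = w γ') : RayRel M w J J' := by
  have hcop : IsCoprime (Ideal.span {γ}) (idl K M) := h ▸ hJ.mul_left hI'
  have hcop' : IsCoprime (Ideal.span {γ'}) (idl K M) := h' ▸ hJ'.mul_left hI'
  obtain ⟨δ, hδ⟩ := span_cop_iff.mp hcop
  have hδ' : γ' * δ - 1 ∈ idl K M := by
    have : γ' * δ - 1 = (γ * δ - 1) - (γ - γ') * δ := by ring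
    rw [this]
    exact (idl K M).sub_mem hδ ((idl K M).mul_mem_right _ hγ)
  have hne := ne_zero_of_sub_one_mem hM hδ
  have hne' := ne_zero_of_sub_one_mem hM hδ'
  have hγ0 : γ ≠ 0 := left_ne_zero_of_mul hne
  have hγ0' : γ' ≠ 0 := left_ne_zero_of_mul hne'
  have hδ0 : δ ≠ 0 := right_ne_zero_of_mul hne
  refine ⟨γ' * δ, γ * δ, hne', hne, hδ', hδ, ?_, ?_⟩
  · push_cast
    rw [sign_mul hw (coe_ne_zero hγ0) (coe_ne_zero hδ0),
      sign_mul hw (coe_ne_zero hγ0') (coe_ne_zero hδ0), hsgn]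
  · have hI0 : I' ≠ 0 := cop_ne_zero hM hI'
    apply mul_right_cancel₀ hI0
    rw [mul_assoc, mul_assoc, h, h', Ideal.span_singleton_mul_span_singleton,
      Ideal.span_singleton_mul_span_singleton]
    congr 2
    ring

instance finite_quot {M : ℕ} [NeZero M] : Finite (𝓞 K ⧸ idl K M) := by
  apply Ideal.finiteQuotientOfFreeOfNeBot
  exact idl_ne_bot (Nat.pos_of_ne_zero (NeZero.ne M))

theorem ray_finite {M : ℕ} (hM : 2 ≤ M) (w : K → ℂ) (hw : IsSign w) :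
    Finite (rayCon M w hw).Quotient := by
  classical
  have : NeZero M := ⟨by omega⟩
  choose compl hcompl1 hcompl2 using exists_compl (K := K) M
  have hne : ∀ J : cop K M, (J : Ideal (𝓞 K)) ≠ 0 := fun J => cop_ne_zero hM J.2
  have hg : ∀ J : cop K M, ∃ γ : 𝓞 K, (J : Ideal (𝓞 K)) * compl (ClassGroup.mk0 ⟨J,
      mem_nonZeroDivisors_of_ne_zero (hne J)⟩) = Ideal.span {γ} := fun J =>
    hcompl2 _ J J.2 (hne J) rfl
  choose gam hgam using hg
  obtain ⟨rep, hrep⟩ : ∃ rep : (rayCon M w hw).Quotient → cop K M,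
      ∀ q, ((rep q : cop K M) : (rayCon M w hw).Quotient) = q :=
    ⟨fun q => Quotient.out q, fun q => Quotient.out_eq q⟩
  let F : (rayCon M w hw).Quotient → ClassGroup (𝓞 K) × (𝓞 K ⧸ idl K M) × Bool := fun q =>
    (ClassGroup.mk0 ⟨rep q, mem_nonZeroDivisors_of_ne_zero (hne (rep q))⟩,
      Ideal.Quotient.mk _ (gam (rep q)), decide (w (gam (rep q)) = 1))
  apply Finite.of_injective F
  intro q q' hqq
  simp only [F, Prod.mk.injEq, decide_eq_decide] at hqq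
  obtain ⟨h1, h2, h3⟩ := hqq
  rw [← hrep q, ← hrep q', Con.eq]
  have hs : w (gam (rep q)) = w (gam (rep q')) := by
    rcases sign_eq hw (gam (rep q)) with h | h
    · rw [h, h3.mp h]
    · rcases sign_eq hw (gam (rep q')) with h' | h'
      · exact absurd (h3.mpr h') (by rw [h]; norm_num)
      · rw [h, h']
  refine rayRel_of_mul (I' := compl (ClassGroup.mk0 ⟨rep q, mem_nonZeroDivisors_of_ne_zero (hne (rep q))⟩))
    hM hw (rep q).2 (hcompl1 _) (rep q').2 (hgam (rep q)) (by rw [h1]; exact hgam (rep q')) ?_ hs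
  exact Ideal.Quotient.eq.mp h2

theorem exists_pow_sub_one_mem {M : ℕ} (hM : 2 ≤ M) {γ : 𝓞 K} (h : IsCoprime (Ideal.span {γ}) (idl K M)) :
    ∃ n : ℕ, 0 < n ∧ γ ^ n - 1 ∈ idl K M := by
  have : NeZero M := ⟨by omega⟩
  obtain ⟨δ, hδ⟩ := span_cop_iff.mp h
  have hu : Ideal.Quotient.mk (idl K M) γ * Ideal.Quotient.mk (idl K M) δ = 1 := by
    rw [← map_mul, ← map_one (Ideal.Quotient.mk (idl K M)), Ideal.Quotient.eq]
    exact hδ
  have := Fintype.ofFinite (𝓞 K ⧸ idl K M)ˣ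
  let u : (𝓞 K ⧸ idl K M)ˣ := Units.mkOfMulEqOne _ _ hu
  refine ⟨Fintype.card (𝓞 K ⧸ idl K M)ˣ, Fintype.card_pos, ?_⟩
  have h2 : u ^ (Fintype.card (𝓞 K ⧸ idl K M)ˣ) = 1 := pow_card_eq_one
  rw [Units.ext_iff, Units.val_pow_eq_pow_val, Units.val_one] at h2
  rw [← Ideal.Quotient.eq, map_pow, map_one]
  exact h2

theorem ray_isUnit {M : ℕ} (hM : 2 ≤ M) (w : K → ℂ) (hw : IsSign w) (q : (rayCon M w hw).Quotient) :
    IsUnit q := by
  induction q using Con.induction_on with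
  | H I =>
    have hI0 : (I : Ideal (𝓞 K)) ≠ 0 := cop_ne_zero hM I.2
    obtain ⟨γ, hγ⟩ : ∃ γ : 𝓞 K, (I : Ideal (𝓞 K)) ^ (Fintype.card (ClassGroup (𝓞 K))) = Ideal.span {γ} := by
      apply exists_span_of_mk0_eq_one (pow_ne_zero _ hI0)
      have h1 : (⟨(I : Ideal (𝓞 K)) ^ (Fintype.card (ClassGroup (𝓞 K))),
          mem_nonZeroDivisors_of_ne_zero (pow_ne_zero _ hI0)⟩ : (Ideal (𝓞 K))⁰)
          = (⟨I, mem_nonZeroDivisors_of_ne_zero hI0⟩ : (Ideal (𝓞 K))⁰) ^ (Fintype.card (ClassGroup (𝓞 K))) := by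
        ext; simp
      rw [h1, map_pow, pow_card_eq_one]
    have hcop : IsCoprime (Ideal.span {γ}) (idl K M) := hγ ▸ I.2.pow_left
    obtain ⟨n, hn, hn1⟩ := exists_pow_sub_one_mem hM hcop
    set k : ℕ := Fintype.card (ClassGroup (𝓞 K)) * (n * 2) with hk
    have hkpos : 0 < k := Nat.mul_pos Fintype.card_pos (by omega)
    have hne := ne_zero_of_sub_one_mem hM hn1
    have hpow : ((I : (rayCon M w hw).Quotient)) ^ k = 1 := by
      have hpow' : (rayCon M w hw).mk' (I ^ k) = (rayCon M w hw).mk' 1 := by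
        rw [Con.coe_mk', Con.eq]
        refine ⟨1, (γ ^ n) * (γ ^ n), one_ne_zero, mul_ne_zero hne hne, by simp, ?_, ?_, ?_⟩
        · exact mul_sub_one_mem hn1 hn1
        · have h1 : ((γ ^ n * γ ^ n : 𝓞 K) : K) = ((γ ^ n : 𝓞 K) : K) * ((γ ^ n : 𝓞 K) : K) := rfl
          rw [h1, sign_mul hw (coe_ne_zero hne) (coe_ne_zero hne), sign_mul_self hw]
          exact sign_one hw
        · simp only [SubmonoidClass.coe_pow, OneMemClass.coe_one, mul_one]
          rw [Ideal.span_singleton_one, Ideal.top_mul, hk, pow_mul, hγ, Ideal.span_singleton_pow,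
            pow_mul, pow_two]
      rwa [map_pow, map_one] at hpow'
    exact IsUnit.of_pow_eq_one hpow hkpos.ne'

end Vale.Agent.P022.H380
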