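import Vale.Agent.P022.H380.RayFin
import Vale.Agent.P022.H380.Poly

/-! Approximation of a 2-adic Hecke character by ray class characters. -/

namespace Vale.Agent.P022.H380

open NumberField Finset nonZeroDivisors

set_option linter.unusedSectionVars false

variable {K : Type} [Field K] [NumberField K]

theorem exists_fourier' (Q : Type) [hQ : CommMonoid Q] [Finite Q] (h : ∀ a : Q, IsUnit a) :
    ∃ (ι : Type) (_ : Fintype ι) (χ : ι → (Q →* ℂ)), ∀ F : Q → ℂ, ∃ c : ι → ℂ,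
      ∀ q, F q = ∑ i, c i * χ i q :=
  @exists_fourier Q (commGroupOfIsUnit h) _

/-- The ray class group, abstractly. -/
theorem exists_rayClass {M : ℕ} (hM : 2 ≤ M) (w : K → ℂ) (hw : IsSign w) :
    ∃ (Q : Type) (_ : CommMonoid Q) (_ : Finite Q) (cls : cop K M →* Q),
      (∀ a : Q, IsUnit a) ∧ Function.Surjective cls ∧
      ∀ I J : cop K M, cls I = cls J ↔ RayRel M w (I : Ideal (𝓞 K)) (J : Ideal (𝓞 K)) :=
  ⟨(rayCon M w hw).Quotient, inferInstance, ray_finite hM w hw, (rayCon M w hw).mk',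
    ray_isUnit hM w hw, Con.mk'_surjective, fun _ _ => Con.eq _⟩

/-- Extension by zero of a character of the ray class group. -/
noncomputable def ext0 {M : ℕ} (hM : 2 ≤ M) {Q : Type} [CommMonoid Q] (cls : cop K M →* Q)
    (χ : Q →* ℂ) : Ideal (𝓞 K) →*₀ ℂ where
  toFun I := by
    classical
    exact if h : IsCoprime I (idl K M) then χ (cls ⟨I, h⟩) else 0
  map_zero' := by
    rw [dif_neg (fun h => cop_ne_zero hM h rfl)]
  map_one' := by
    rw [dif_pos isCoprime_one_left]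
    have : (⟨1, isCoprime_one_left⟩ : cop K M) = 1 := rfl
    rw [this, map_one, map_one]
  map_mul' I J := by
    by_cases hI : IsCoprime I (idl K M)
    · by_cases hJ : IsCoprime J (idl K M)
      · rw [dif_pos hI, dif_pos hJ, dif_pos (hI.mul_left hJ), ← map_mul, ← map_mul]
        rfl
      · rw [dif_neg hJ, dif_neg (fun h => hJ (IsCoprime.mul_left_iff.mp h).2), mul_zero]
    · rw [dif_neg hI, dif_neg (fun h => hI (IsCoprime.mul_left_iff.mp h).1), zero_mul]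

theorem ext0_apply {M : ℕ} (hM : 2 ≤ M) {Q : Type} [CommMonoid Q] (cls : cop K M →* Q)
    (χ : Q →* ℂ) {I : Ideal (𝓞 K)} (h : IsCoprime I (idl K M)) :
    ext0 hM cls χ I = χ (cls ⟨I, h⟩) := dif_pos h

theorem ext0_ne_zero_iff {M : ℕ} (hM : 2 ≤ M) {Q : Type} [CommMonoid Q] (cls : cop K M →* Q)
    (hu : ∀ a : Q, IsUnit a) (χ : Q →* ℂ) (I : Ideal (𝓞 K)) :
    ext0 hM cls χ I ≠ 0 ↔ IsCoprime I (idl K M) := by
  constructor
  · intro h
    by_contra hI
    exact h (dif_neg hI)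
  · intro h
    rw [ext0_apply hM cls χ h]
    exact ((hu _).map χ).ne_zero

theorem span_cop_of_sub_one {M : ℕ} {α : 𝓞 K} (h : α - 1 ∈ idl K M) :
    IsCoprime (Ideal.span {α}) (idl K M) := span_cop_iff.mpr ⟨1, by rwa [mul_one]⟩

theorem rel_one {M : ℕ} (w : K → ℂ) (hw : IsSign w) {α : 𝓞 K} (h0 : α ≠ 0)
    (h : α - 1 ∈ idl K M) (hα : w α = 1) : RayRel M w (Ideal.span {α}) 1 := by
  refine ⟨1, α, one_ne_zero, h0, by simp, h, ?_, ?_⟩
  · rw [hα]; exact sign_one hw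
  · simp

theorem rel_of_sign {M : ℕ} (w : K → ℂ) {α β : 𝓞 K} (h0 : α ≠ 0) (h0' : β ≠ 0)
    (h : α - 1 ∈ idl K M) (h' : β - 1 ∈ idl K M) (hα : w α = w β) :
    RayRel M w (Ideal.span {α}) (Ideal.span {β}) := by
  refine ⟨β, α, h0', h0, h', h, hα.symm, ?_⟩
  simp only [Ideal.span_singleton_mul_span_singleton]
  rw [mul_comm]

variable {v : AbsoluteValue ℂ ℝ}

theorem approx_of_rel (hv : ∀ x y : ℂ, v (x + y) ≤ max (v x) (v y)) {M : ℕ}
    {w : K → ℂ} (hw : IsSign w) (Ψ : Ideal (𝓞 K) →*₀ ℂ)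
    (hunit : ∀ I, IsCoprime I (idl K M) → v (Ψ I) = 1) {ε : ℝ}
    (hcont : ∀ α : 𝓞 K, α ≠ 0 → α - 1 ∈ idl K M → v (Ψ (Ideal.span {α}) - w α) ≤ ε)
    {I J : Ideal (𝓞 K)} (hI : IsCoprime I (idl K M)) (hJ : IsCoprime J (idl K M))
    (h : RayRel M w I J) : v (Ψ I - Ψ J) ≤ ε := by
  obtain ⟨α, β, h1, h2, h3, h4, h5, h6⟩ := h
  have h7 : Ψ (Ideal.span {α}) * Ψ I = Ψ (Ideal.span {β}) * Ψ J := by
    rw [← map_mul, ← map_mul, h6]
  have h8 : Ψ I - Ψ J = w α * ((w α - Ψ (Ideal.span {α})) * Ψ I +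
      (Ψ (Ideal.span {β}) - w β) * Ψ J) := by
    have h9 := sign_mul_self hw (α : K)
    rw [← h5]
    linear_combination (-(Ψ I) + Ψ J) * h9 + (w α) * h7
  have hvw : v (w α) = 1 := by
    rcases sign_eq hw (α : K) with h | h <;> simp [h]
  rw [h8, map_mul, hvw, one_mul]
  refine v_add_le hv ?_ ?_
  · rw [map_mul, hunit I hI, mul_one, AbsoluteValue.map_sub]
    exact hcont α h1 h3
  · rw [map_mul, hunit J hJ, mul_one]
    exact hcont β h2 h4

theorem sum_sub_half {ι : Type} [Fintype ι] [DecidableEq ι] (c x y : ι → ℂ)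
    (hy : ∀ i, y i = 1 ∨ y i = -1) [DecidablePred fun i => y i = -1] :
    ∑ i : {i : ι // y i = -1}, c i * x i = (∑ i, c i * x i - ∑ i, c i * (y i * x i)) / 2 := by
  have h1 : ∑ i : {i : ι // y i = -1}, c i * x i = ∑ i, if y i = -1 then c i * x i else 0 := by
    rw [← Finset.sum_filter]
    exact (Finset.sum_subtype (Finset.univ.filter fun i => y i = -1) (by simp)
      (fun i => c i * x i)).symm
  rw [h1, ← Finset.sum_sub_distrib, Finset.sum_div]
  refine Finset.sum_congr rfl (fun i _ => ?_)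
  rcases hy i with h | h
  · rw [if_neg (by rw [h]; norm_num), h]; ring
  · rw [if_pos h, h]; ring

theorem ray_fourier (hv : TwoAdic v) {M : ℕ} (hM : 2 ≤ M)
    {w : K → ℂ} (hw : IsSign w) (Ψ : Ideal (𝓞 K) →*₀ ℂ)
    (hunit : ∀ I, IsCoprime I (idl K M) → v (Ψ I) = 1) {ε : ℝ} (hε : 0 ≤ ε)
    (hcont : ∀ α : 𝓞 K, α ≠ 0 → α - 1 ∈ idl K M → v (Ψ (Ideal.span {α}) - w α) ≤ ε) :
    ∃ (ι : Type) (_ : Fintype ι) (c : ι → ℂ) (ξ : ι → (Ideal (𝓞 K) →*₀ ℂ)),
      (∀ i, IsRay (ξ i) M w) ∧ ∀ I, IsCoprime I (idl K M) → v (Ψ I - ∑ i, c i * ξ i I) ≤ 2 * ε := by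
  classical
  obtain ⟨Q, hQ, hQf, cls, hu, hsurj, hrel⟩ := exists_rayClass hM w hw
  obtain ⟨ι, hι, χ, hχ⟩ := exists_fourier' Q hu
  obtain ⟨rep, hrep⟩ : ∃ rep : Q → cop K M, ∀ q, cls (rep q) = q :=
    ⟨Function.surjInv hsurj, Function.surjInv_eq hsurj⟩
  obtain ⟨c, hc⟩ := hχ (fun q => Ψ (rep q))
  have hrepΨ : ∀ I : Ideal (𝓞 K), ∀ hI : IsCoprime I (idl K M),
      v (Ψ I - Ψ (rep (cls ⟨I, hI⟩))) ≤ ε := by
    intro I hI
    refine approx_of_rel hv.nonarch hw Ψ hunit hcont hI (rep _).2 ?_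
    exact (hrel ⟨I, hI⟩ _).mp (hrep _).symm
  by_cases hall : ∀ α : 𝓞 K, α ≠ 0 → α - 1 ∈ idl K M → w α = 1
  · refine ⟨ι, hι, c, fun i => ext0 hM cls (χ i), fun i => ⟨ext0_ne_zero_iff hM cls hu (χ i), ?_⟩, ?_⟩
    · intro α h0 h1
      have h2 : cls ⟨Ideal.span {α}, span_cop_of_sub_one h1⟩ = cls 1 :=
        (hrel _ _).mpr (rel_one w hw h0 h1 (hall α h0 h1))
      rw [ext0_apply hM cls _ (span_cop_of_sub_one h1), h2, map_one, map_one, hall α h0 h1]
    · intro I hI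
      have h1 : ∑ i, c i * ext0 hM cls (χ i) I = Ψ (rep (cls ⟨I, hI⟩)) := by
        rw [hc]
        refine Finset.sum_congr rfl (fun i _ => ?_)
        rw [ext0_apply hM cls _ hI]
      rw [h1]
      exact (hrepΨ I hI).trans (by linarith)
  · push Not at hall
    obtain ⟨α0, h0, h1, hw0⟩ := hall
    have hw0' : w α0 = -1 := (sign_eq hw (α0 : K)).resolve_left hw0
    obtain ⟨g0, hg0⟩ : ∃ g0 : Q, g0 = cls ⟨Ideal.span {α0}, span_cop_of_sub_one h1⟩ := ⟨_, rfl⟩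
    have hg0sq : g0 * g0 = 1 := by
      have h2 : w ((α0 * α0 : 𝓞 K) : K) = 1 := by
        have : ((α0 * α0 : 𝓞 K) : K) = (α0 : K) * (α0 : K) := rfl
        rw [this, sign_mul hw (coe_ne_zero h0) (coe_ne_zero h0), sign_mul_self hw]
      rw [hg0, ← map_mul, ← map_one cls, hrel]
      have h3 := rel_one (M := M) w hw (mul_ne_zero h0 h0) (mul_sub_one_mem h1 h1) h2
      rw [← Ideal.span_singleton_mul_span_singleton] at h3
      exact h3
    have hχg0 : ∀ i, χ i g0 = 1 ∨ χ i g0 = -1 := by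
      intro i
      have : (χ i g0) ^ 2 = 1 := by rw [pow_two, ← map_mul, hg0sq, map_one]
      exact sq_eq_one_iff.mp this
    refine ⟨{i : ι // χ i g0 = -1}, inferInstance, fun i => c i, fun i => ext0 hM cls (χ i),
      fun i => ⟨ext0_ne_zero_iff hM cls hu (χ i), ?_⟩, ?_⟩
    · intro α h2 h3
      rw [ext0_apply hM cls _ (span_cop_of_sub_one h3)]
      rcases sign_eq hw (α : K) with h | h
      · have h4 : cls ⟨Ideal.span {α}, span_cop_of_sub_one h3⟩ = cls 1 :=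
          (hrel _ _).mpr (rel_one w hw h2 h3 h)
        rw [h4, map_one, map_one, h]
      · have h4 : cls ⟨Ideal.span {α}, span_cop_of_sub_one h3⟩ = g0 := by
          rw [hg0]
          exact (hrel _ _).mpr (rel_of_sign w h2 h0 h3 h1 (by rw [h, hw0']))
        rw [h4, i.2, h]
    · intro I hI
      have hq : cls ⟨Ideal.span {α0} * I, (span_cop_of_sub_one h1).mul_left hI⟩
          = g0 * cls ⟨I, hI⟩ := by
        rw [hg0, ← map_mul]; rfl
      have hsum : ∑ i : {i : ι // χ i g0 = -1}, c i * ext0 hM cls (χ i) I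
          = (Ψ (rep (cls ⟨I, hI⟩)) - Ψ (rep (g0 * cls ⟨I, hI⟩))) / 2 := by
        rw [hc, hc]
        have e1 : ∑ i : {i : ι // χ i g0 = -1}, c i * ext0 hM cls (χ i) I
            = ∑ i : {i : ι // χ i g0 = -1}, c i * χ i (cls ⟨I, hI⟩) := by
          refine Finset.sum_congr rfl (fun i _ => ?_)
          rw [ext0_apply hM cls _ hI]
        rw [e1, sum_sub_half c (fun i => χ i (cls ⟨I, hI⟩)) (fun i => χ i g0) hχg0]
        simp only [map_mul]
      rw [hsum]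
      have h4 : Ψ I - (Ψ (rep (cls ⟨I, hI⟩)) - Ψ (rep (g0 * cls ⟨I, hI⟩))) / 2
          = (Ψ I - Ψ (rep (cls ⟨I, hI⟩))) + ((Ψ (rep (cls ⟨I, hI⟩)) - Ψ I)
            + (Ψ I + Ψ (rep (g0 * cls ⟨I, hI⟩)))) / 2 := by ring
      have h5 : v (Ψ I + Ψ (rep (g0 * cls ⟨I, hI⟩))) ≤ ε := by
        have h6 : v (Ψ (Ideal.span {α0} * I) - Ψ (rep (g0 * cls ⟨I, hI⟩))) ≤ ε := by
          have := hrepΨ (Ideal.span {α0} * I) ((span_cop_of_sub_one h1).mul_left hI)
          rwa [hq] at this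
        have h7 : v (Ψ (Ideal.span {α0}) - w α0) ≤ ε := hcont α0 h0 h1
        have h8 : Ψ I + Ψ (rep (g0 * cls ⟨I, hI⟩)) = (Ψ (Ideal.span {α0}) - w α0) * Ψ I
            - (Ψ (Ideal.span {α0} * I) - Ψ (rep (g0 * cls ⟨I, hI⟩))) := by
          rw [map_mul, hw0']; ring
        rw [h8]
        refine (v_sub_le hv.nonarch _ _).trans (max_le ?_ h6)
        rw [map_mul, hunit I hI, mul_one]
        exact h7
      rw [h4]
      refine v_add_le hv.nonarch ((hrepΨ I hI).trans (by linarith)) ?_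
      rw [map_div₀, hv.two]
      have h9 : v ((Ψ (rep (cls ⟨I, hI⟩)) - Ψ I) + (Ψ I + Ψ (rep (g0 * cls ⟨I, hI⟩)))) ≤ ε := by
        refine v_add_le hv.nonarch ?_ h5
        rw [AbsoluteValue.map_sub]
        exact hrepΨ I hI
      linarith

end Vale.Agent.P022.H380
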