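import Vale.Agent.P022.H380.Norms
import Vale.Agent.P022.H380.Dir

/-! Twisting a ray class character by a character of the norm so that its nebentypus at two
becomes trivial or `χ₄`. -/

namespace Vale.Agent.P022.H380

open NumberField Finset nonZeroDivisors

set_option linter.unusedSectionVars false

variable {K : Type} [Field K] [NumberField K]

theorem neben_mul {ξ : Ideal (𝓞 K) →*₀ ℂ} {d d' : ℕ} (hd : d ≠ 0) (hd' : d' ≠ 0) :
    neben ξ (d * d') = neben ξ d * neben ξ d' := by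
  unfold neben
  rw [jacobiSym.mul_right' _ hd hd']
  push_cast
  rw [idl_mul, map_mul]
  ring

theorem neben_one {ξ : Ideal (𝓞 K) →*₀ ℂ} : neben ξ 1 = 1 := by
  unfold neben
  rw [jacobiSym.one_right]
  have : idl K ((1 : ℕ) : ℤ) = 1 := by simp [idl]
  rw [this, map_one]
  simp

theorem jacobi_congr {D : ℤ} {d d' : ℕ} (hd : Odd d) (hd' : Odd d') {L : ℕ} (hL : 4 * D.natAbs ∣ L)
    (h : d ≡ d' [MOD L]) : jacobiSym D d = jacobiSym D d' := by
  rw [jacobiSym.mod_right D hd, jacobiSym.mod_right D hd']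
  have : d ≡ d' [MOD 4 * D.natAbs] := h.of_dvd hL
  unfold Nat.ModEq at this
  rw [this]

theorem odd_of_unit {S : ℕ} (hS : S ≠ 0) {n : ℕ} (h : IsUnit (n : ZMod (2 ^ S))) : Odd n := by
  rw [ZMod.isUnit_iff_coprime] at h
  have h2 : Nat.Coprime n 2 := Nat.Coprime.coprime_dvd_right (dvd_pow_self 2 hS) h
  exact (Nat.coprime_two_right).mp h2

theorem unit_of_odd {S : ℕ} {n : ℕ} (h : Odd n) : IsUnit (n : ZMod (2 ^ S)) := by
  rw [ZMod.isUnit_iff_coprime]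
  exact Nat.Coprime.pow_right _ (Nat.coprime_two_right.mpr h)

theorem coprime_of_modEq_one {N d : ℕ} (h : d ≡ 1 [MOD N]) : Nat.Coprime d N := by
  have := h.gcd_eq
  rw [Nat.coprime_iff_gcd_eq_one, this]
  simp

theorem exists_mu {S S0 N N0 : ℕ} (hN : Odd N) (hN0 : N0 ∣ N) (hS0 : 1 ≤ S0) (hSS : S0 ≤ S + 2)
    (hD : 4 * (discr K).natAbs ∣ 2 ^ (S + 2) * N) {w : K → ℂ} (hw : IsSign w)
    {ξ : Ideal (𝓞 K) →*₀ ℂ} (hξ : IsRay ξ (2 ^ S0 * N0) w) :
    ∃ μ : (ZMod (2 ^ (S + 3)))ˣ →* ℂˣ,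
      (∀ u : (ZMod (2 ^ (S + 3)))ˣ,
        ZMod.unitsMap (pow_dvd_pow 2 (Nat.le_succ (S + 2))) u = 1 → μ u = 1) ∧
      ∀ (u : (ZMod (2 ^ (S + 3)))ˣ) (d : ℕ), (u : ZMod (2 ^ (S + 3))) = d → d ≡ 1 [MOD N] →
        (μ u : ℂ) = neben ξ d := by
  have hNpos : 0 < N := hN.pos
  have hN0pos : 0 < N0 := Nat.pos_of_dvd_of_pos hN0 hNpos
  have hM : 2 ≤ 2 ^ S0 * N0 := by
    have : 2 ^ 1 ≤ 2 ^ S0 := Nat.pow_le_pow_right (by norm_num) hS0
    nlinarith
  have hco : ∀ t : ℕ, Nat.Coprime (2 ^ t) N := fun t =>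
    Nat.Coprime.pow_left _ (Nat.coprime_two_left.mpr hN)
  have hMdvd : 2 ^ S0 * N0 ∣ 2 ^ (S + 2) * N := mul_dvd_mul (pow_dvd_pow 2 hSS) hN0
  -- well-definedness
  have hwd : ∀ d d' : ℕ, Odd d → Odd d' → d ≡ 1 [MOD N] → d' ≡ 1 [MOD N] →
      d ≡ d' [MOD 2 ^ (S + 2)] → neben ξ d = neben ξ d' := by
    intro d d' ho ho' h1 h1' h2
    have h3 : d ≡ d' [MOD 2 ^ (S + 2) * N] :=
      (Nat.modEq_and_modEq_iff_modEq_mul (hco _)).mp ⟨h2, h1.trans h1'.symm⟩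
    have h4 : Nat.Coprime d (2 ^ S0 * N0) := by
      refine Nat.Coprime.mul_right ?_ ?_
      · exact Nat.Coprime.pow_right _ (Nat.coprime_two_right.mpr ho)
      · exact (coprime_of_modEq_one h1).coprime_dvd_right hN0
    unfold neben
    rw [jacobi_congr ho ho' hD h3, ray_idl_congr hM hw hξ ho.pos ho'.pos h4 (h3.of_dvd hMdvd)]
  have hcrt : ∀ u : (ZMod (2 ^ (S + 3)))ˣ, ∃ d : ℕ, (u : ZMod (2 ^ (S + 3))) = d ∧ Odd d ∧
      d ≡ 1 [MOD N] := by
    intro u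
    obtain ⟨k, hk1, hk2⟩ := Nat.chineseRemainder (hco (S + 3)) (u : ZMod (2 ^ (S + 3))).val 1
    have h1 : (u : ZMod (2 ^ (S + 3))) = k := by
      have := (ZMod.natCast_eq_natCast_iff _ _ _).mpr hk1
      rw [this]; simp
    exact ⟨k, h1, odd_of_unit (S := S + 3) (by omega) (h1 ▸ u.isUnit), hk2⟩
  choose dd hdd1 hdd2 hdd3 using hcrt
  have hcast : ∀ (u : (ZMod (2 ^ (S + 3)))ˣ) (d : ℕ), (u : ZMod (2 ^ (S + 3))) = d →
      d ≡ 1 [MOD N] → neben ξ (dd u) = neben ξ d := by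
    intro u d h1 h2
    refine hwd _ _ (hdd2 u) (odd_of_unit (S := S + 3) (by omega) (h1 ▸ u.isUnit)) (hdd3 u) h2 ?_
    have : ((dd u : ℕ) : ZMod (2 ^ (S + 3))) = ((d : ℕ) : ZMod (2 ^ (S + 3))) := by
      rw [← hdd1 u, h1]
    rw [ZMod.natCast_eq_natCast_iff] at this
    exact this.of_dvd (pow_dvd_pow 2 (Nat.le_succ (S + 2)))
  let f : (ZMod (2 ^ (S + 3)))ˣ →* ℂ :=
    { toFun := fun u => neben ξ (dd u)
      map_one' := by
        rw [hcast 1 1 (by simp) rfl, neben_one]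
      map_mul' := fun u u' => by
        rw [hcast (u * u') (dd u * dd u') (by push_cast; rw [← hdd1, ← hdd1])
          ((hdd3 u).mul (hdd3 u')), neben_mul (hdd2 u).pos.ne' (hdd2 u').pos.ne'] }
  refine ⟨f.toHomUnits, ?_, ?_⟩
  · intro u hu
    ext
    rw [MonoidHom.coe_toHomUnits]
    change neben ξ (dd u) = 1
    rw [← neben_one (ξ := ξ)]
    refine hwd _ _ (hdd2 u) odd_one (hdd3 u) rfl ?_
    rw [← ZMod.natCast_eq_natCast_iff]
    have h1 := congrArg (fun x : (ZMod (2 ^ (S + 2)))ˣ => (x : ZMod (2 ^ (S + 2)))) hu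
    simp only [ZMod.unitsMap_val, Units.val_one] at h1
    rw [hdd1 u, ZMod.cast_natCast (pow_dvd_pow 2 (Nat.le_succ (S + 2)))] at h1
    rw [h1]; simp
  · intro u d h1 h2
    rw [MonoidHom.coe_toHomUnits]
    exact hcast u d h1 h2

theorem exists_twist (hK : Module.finrank ℚ K = 2) {S S0 N N0 : ℕ} (hN : Odd N) (hN0 : N0 ∣ N)
    (hS0 : 1 ≤ S0) (hSS : S0 ≤ S + 2)
    (hD : 4 * (discr K).natAbs ∣ 2 ^ (S + 2) * N) {w : K → ℂ} (hw : IsSign w)
    {ξ : Ideal (𝓞 K) →*₀ ℂ} (hξ : IsRay ξ (2 ^ S0 * N0) w) :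
    ∃ (ep : Ideal (𝓞 K) →*₀ ℂ) (nu : ℕ → ℂ), IsRay ep (2 ^ (S + 3) * N0) w ∧
      ((∀ d : ℕ, Odd d → d ≡ 1 [MOD N] → neben ep d = 1) ∨
        (∀ d : ℕ, Odd d → d ≡ 1 [MOD N] → neben ep d = ((ZMod.χ₄ (d : ZMod 4) : ℤ) : ℂ))) ∧
      (∀ a b : ℕ, a ≡ b [MOD 2 ^ (S + 3)] → nu a = nu b) ∧
      ∀ I, IsCoprime I (idl K (2 * N0)) → ξ I = ep I * nu (Ideal.absNorm I) := by
  obtain ⟨μ, hμ1, hμ2⟩ := exists_mu hN hN0 hS0 hSS hD hw hξ
  obtain ⟨ν, hν1, hν2⟩ := exists_sqrt S μ hμ1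
  let nui : MulChar (ZMod (2 ^ (S + 3))) ℂ := MulChar.ofUnitHom ν⁻¹
  have hnui : ∀ u : (ZMod (2 ^ (S + 3)))ˣ, nui u = (ν u : ℂ)⁻¹ := by
    intro u
    simp only [nui, MulChar.ofUnitHom_coe, MonoidHom.inv_apply, Units.val_inv_eq_inv_val]
  let ep : Ideal (𝓞 K) →*₀ ℂ :=
    { toFun := fun I => ξ I * nui ((Ideal.absNorm I : ℕ) : ZMod (2 ^ (S + 3)))
      map_zero' := by rw [map_zero, zero_mul]
      map_one' := by rw [map_one, map_one]; simp
      map_mul' := fun I J => by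
        rw [map_mul, map_mul]
        push_cast
        rw [map_mul]
        ring }
  have hep : ∀ I, ep I = ξ I * nui ((Ideal.absNorm I : ℕ) : ZMod (2 ^ (S + 3))) := fun I => rfl
  let nu : ℕ → ℂ := fun n => (MulChar.ofUnitHom ν : MulChar (ZMod (2 ^ (S + 3))) ℂ) (n : ZMod (2 ^ (S + 3)))
  have hnu : ∀ n, nu n = (MulChar.ofUnitHom ν : MulChar (ZMod (2 ^ (S + 3))) ℂ) (n : ZMod (2 ^ (S + 3))) :=
    fun n => rfl
  have hodd : ∀ I : Ideal (𝓞 K), IsCoprime I (idl K (2 * N0)) → Odd (Ideal.absNorm I) := fun I hI =>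
    absNorm_odd (cop_mul_iff.mp hI).1
  refine ⟨ep, nu, ⟨?_, ?_⟩, ?_, ?_, ?_⟩
  · intro I
    rw [cop_two_pow_iff (by omega), hep]
    constructor
    · intro h
      exact (cop_two_pow_iff hS0 N0).mp ((hξ.supp I).mp (left_ne_zero_of_mul h))
    · intro h
      refine mul_ne_zero ((hξ.supp I).mpr ((cop_two_pow_iff hS0 N0).mpr h)) ?_
      obtain ⟨u, hu⟩ := unit_of_odd (S := S + 3) (hodd I h)
      rw [← hu, hnui]
      exact inv_ne_zero (Units.ne_zero _)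
  · intro α h0 h1
    rw [hep]
    have h2 : α - 1 ∈ idl K ((2 ^ S0 * N0 : ℕ) : ℤ) := by
      refine idl_mono ?_ h1
      exact Int.natCast_dvd_natCast.mpr (mul_dvd_mul (pow_dvd_pow 2 (by omega)) dvd_rfl)
    rw [hξ.princ α h0 h2, Ideal.absNorm_span_singleton]
    have h3 : ((2 ^ (S + 3) : ℕ) : ℤ) ∣ Algebra.norm ℤ α - 1 := by
      refine dvd_trans ?_ (norm_sub_one_dvd h1)
      exact Int.natCast_dvd_natCast.mpr (dvd_mul_right _ _)
    have h4 : ((Algebra.norm ℤ α : ℤ) : ZMod (2 ^ (S + 3))) = 1 := by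
      have := (ZMod.intCast_zmod_eq_zero_iff_dvd _ _).mpr h3
      push_cast at this
      exact sub_eq_zero.mp this
    have h5 : (((Algebra.norm ℤ α).natAbs : ℕ) : ZMod (2 ^ (S + 3))) = 1 ∨
        (((Algebra.norm ℤ α).natAbs : ℕ) : ZMod (2 ^ (S + 3))) = -1 := by
      rcases Int.natAbs_eq (Algebra.norm ℤ α) with h | h
      · left
        rw [h] at h4
        simpa using h4
      · right
        rw [h] at h4
        push_cast at h4
        rw [← h4]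
        simp
    have h6 : nui ((((Algebra.norm ℤ α).natAbs : ℕ) : ZMod (2 ^ (S + 3)))) = 1 := by
      rcases h5 with h | h
      · rw [h, map_one]
      · rw [h]
        have : (-1 : ZMod (2 ^ (S + 3))) = ((-1 : (ZMod (2 ^ (S + 3)))ˣ) : ZMod (2 ^ (S + 3))) := by simp
        rw [this, hnui, hν1]
        simp
    rw [h6, mul_one]
  · have hne : ∀ (d : ℕ) (u : (ZMod (2 ^ (S + 3)))ˣ), (u : ZMod (2 ^ (S + 3))) = d → d ≡ 1 [MOD N] →
        neben ep d = (μ u : ℂ) * ((ν u : ℂ)⁻¹) ^ 2 := by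
      intro d u h1 h2
      rw [hμ2 u d h1 h2]
      unfold neben
      rw [hep, absNorm_idl hK]
      push_cast
      rw [map_pow, ← h1, hnui]
      ring
    rcases hν2 with h | h
    · left
      intro d ho h1
      obtain ⟨u, hu⟩ := unit_of_odd (S := S + 3) ho
      rw [hne d u hu h1, h u, Units.val_pow_eq_pow_val]
      have := Units.ne_zero (ν u)
      field_simp
    · right
      intro d ho h1
      obtain ⟨u, hu⟩ := unit_of_odd (S := S + 3) ho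
      rw [hne d u hu h1, h u, Units.val_mul, Units.val_pow_eq_pow_val, X4_apply (S + 1) u d hu]
      have := Units.ne_zero (ν u)
      field_simp
  · intro a b hab
    have := (ZMod.natCast_eq_natCast_iff a b (2 ^ (S + 3))).mpr hab
    rw [hnu, hnu, this]
  · intro I hI
    obtain ⟨u, hu⟩ := unit_of_odd (S := S + 3) (hodd I hI)
    rw [hep, hnu, ← hu, hnui, MulChar.ofUnitHom_coe, mul_assoc, inv_mul_cancel₀ (Units.ne_zero _), mul_one]

end Vale.Agent.P022.H380
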